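import Vale.Agent.P139.H201.Ext4
import Vale.Agent.P139.BU.WX
import Vale.Agent.P139.H579.NNorm

/-!
# Extension from `ℝ^d` to the torus, VI: cut-offs away from the origin

`Nn ℓ j (per k (χ f(·/ℓ))) → 0` as `ℓ → 0` if `χ` vanishes near the origin and `f` is in the
weighted Wiener class of order `k`.
-/

open Set Filter Topology MeasureTheory FourierTransform
open scoped ComplexConjugate ContDiff

namespace Vale.Agent.P139.H201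

open Vale.Agent.P139.A Vale.Agent.P139.A.WA Vale.Agent.P139.H203 Vale.Agent.P139.BU
open Vale.Agent.P139.N

variable {d k : ℕ}

/-- density of smooth compactly supported functions for the weighted integral -/
theorem exists_smooth_approx {φ : E d → ℂ} (hφ : AEStronglyMeasurable φ volume)
    (hφk : Integrable (fun ξ => (1 + ‖ξ‖) ^ k * ‖φ ξ‖)) {ε : ℝ} (hε : 0 < ε) :
    ∃ g : E d → ℂ, HasCompactSupport g ∧ ContDiff ℝ ∞ g ∧
      ∫ ξ, (1 + ‖ξ‖) ^ k * ‖φ ξ - g ξ‖ ≤ ε := by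
  set μ : Measure (E d) := volume.withDensity fun ξ => ENNReal.ofReal ((1 + ‖ξ‖) ^ k) with hμ
  have hc : Continuous fun ξ : E d => (1 + ‖ξ‖) ^ k := by fun_prop
  have : IsLocallyFiniteMeasure μ := IsLocallyFiniteMeasure.withDensity_ofReal hc
  have hmeas : Measurable fun ξ : E d => ENNReal.ofReal ((1 + ‖ξ‖) ^ k) :=
    hc.measurable.ennreal_ofReal
  have hto : ∀ ξ : E d, (ENNReal.ofReal ((1 + ‖ξ‖) ^ k)).toReal = (1 + ‖ξ‖) ^ k := fun ξ =>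
    ENNReal.toReal_ofReal (by positivity)
  have hac : μ ≪ (volume : Measure (E d)) := withDensity_absolutelyContinuous _ _
  have hint : Integrable φ μ := by
    refine (integrable_norm_iff (hφ.mono_ac hac)).1 ?_
    rw [hμ, integrable_withDensity_iff_integrable_smul' hmeas
      (Eventually.of_forall fun _ => ENNReal.ofReal_lt_top)]
    simpa only [hto, smul_eq_mul] using hφk
  obtain ⟨g, hg1, hg2, hg3⟩ := (memLp_one_iff_integrable.2 hint).exist_eLpNorm_sub_le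
    ENNReal.one_ne_top le_rfl hε
  refine ⟨g, hg1, hg2, ?_⟩
  have hgi : Integrable g μ := hg2.continuous.integrable_of_hasCompactSupport hg1
  have hsub : Integrable (φ - g) μ := hint.sub hgi
  rw [eLpNorm_one_eq_lintegral_enorm, ← ofReal_integral_norm_eq_lintegral_enorm hsub,
    ENNReal.ofReal_le_ofReal_iff hε.le, hμ, integral_withDensity_eq_integral_toReal_smul hmeas
    (Eventually.of_forall fun _ => ENNReal.ofReal_lt_top)] at hg3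
  simpa only [hto, smul_eq_mul, Pi.sub_apply] using hg3

lemma moment_le {φ : E d → ℂ} {j : ℕ} (hj : j ≤ k) (hφ : AEStronglyMeasurable φ volume)
    (hφk : Integrable (fun ξ => (1 + ‖ξ‖) ^ k * ‖φ ξ‖)) :
    Integrable (fun ξ => (1 + ‖ξ‖) ^ j * ‖φ ξ‖) ∧
      ∫ ξ, (1 + ‖ξ‖) ^ j * ‖φ ξ‖ ≤ ∫ ξ, (1 + ‖ξ‖) ^ k * ‖φ ξ‖ := by
  have hle : ∀ ξ : E d, (1 + ‖ξ‖) ^ j * ‖φ ξ‖ ≤ (1 + ‖ξ‖) ^ k * ‖φ ξ‖ := by
    intro ξ
    have h1 : 1 ≤ 1 + ‖ξ‖ := by linarith [norm_nonneg ξ]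
    gcongr
  have h1 : Integrable (fun ξ => (1 + ‖ξ‖) ^ j * ‖φ ξ‖) := by
    refine hφk.mono ((Continuous.aestronglyMeasurable (by fun_prop)).mul hφ.norm)
      (Eventually.of_forall fun ξ => ?_)
    rw [Real.norm_of_nonneg (by positivity), Real.norm_of_nonneg (by positivity)]
    exact hle ξ
  exact ⟨h1, integral_mono h1 hφk hle⟩

/-- the two versions of the weight -/
lemma weight_compare {φ : E d → ℂ} (h : Integrable (fun ξ => (1 + ‖ξ‖ ^ k) * ‖φ ξ‖))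
    (hφ : AEStronglyMeasurable φ volume) :
    Integrable (fun ξ => (1 + ‖ξ‖) ^ k * ‖φ ξ‖) ∧
      ∫ ξ, (1 + ‖ξ‖) ^ k * ‖φ ξ‖ ≤ 2 ^ k * ∫ ξ, (1 + ‖ξ‖ ^ k) * ‖φ ξ‖ := by
  have hle : ∀ ξ : E d, (1 + ‖ξ‖) ^ k * ‖φ ξ‖ ≤ 2 ^ k * ((1 + ‖ξ‖ ^ k) * ‖φ ξ‖) := by
    intro ξ
    rw [← mul_assoc]
    exact mul_le_mul_of_nonneg_right (one_add_pow_le k (norm_nonneg ξ)) (norm_nonneg _)
  have h1 : Integrable (fun ξ => (1 + ‖ξ‖) ^ k * ‖φ ξ‖) := by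
    refine (h.const_mul (2 ^ k)).mono ((Continuous.aestronglyMeasurable (by fun_prop)).mul hφ.norm)
      (Eventually.of_forall fun ξ => ?_)
    rw [Real.norm_of_nonneg (by positivity), Real.norm_of_nonneg (by positivity)]
    exact hle ξ
  refine ⟨h1, ?_⟩
  rw [← integral_const_mul]
  exact integral_mono h1 (h.const_mul _) hle

/-- **F for symbols, quantitative.** -/
theorem tail_symbol {χ : E d → ℂ} (hχ : ContDiff ℝ ∞ χ) (hs : ∀ x, 3 ≤ ‖x‖ → χ x = 0) {r0 : ℝ}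
    (hr0 : 0 < r0) (h0 : ∀ x, ‖x‖ ≤ r0 → χ x = 0) {j : ℕ} (hj : j ≤ k) {δ : ℝ} (hδ : 0 < δ) :
    ∃ C : ℝ, 0 < C ∧ ∀ (f : E d → ℂ) (A : ℝ), 0 ≤ A → ContDiff ℝ (nd (E d) k) f →
      (∀ i ≤ nd (E d) k, ∀ x, 1 ≤ ‖x‖ → ‖iteratedFDeriv ℝ i f x‖ ≤ A * ‖x‖ ^ (-δ - (i:ℝ))) →
      ∀ ℓ : ℝ, 0 < ℓ → ℓ ≤ 1 → ℓ ≤ r0 / 2 →
        Loc k (fun x => χ x * f (ℓ⁻¹ • x)) ∧
        Nn ℓ j (per k (fun x => χ x * f (ℓ⁻¹ • x))) ≤ C * A * ℓ ^ δ := by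
  obtain ⟨C1, hC1, H1⟩ := Nn_ext_le (k := k) hχ hs hj
  obtain ⟨C2, hC2, H2⟩ := WienerRep.symbol_tail (E d) ℂ k hδ
  refine ⟨C1 * (2 ^ k * (C2 * (r0 / 2) ^ (-δ))), by positivity, ?_⟩
  intro f A hA hf hbd ℓ hℓ hℓ1 hℓr
  set M : ℝ := r0 / 2 / ℓ with hM
  have hM1 : 1 ≤ M := (one_le_div hℓ).2 hℓr
  have hM0 : 0 < M := lt_of_lt_of_le one_pos hM1
  obtain ⟨φ, hφ, hφs, hrep, hle⟩ := H2 f A M hA hM1 hf
    (fun i hi x hx => hbd i hi x (hM1.trans hx))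
  obtain ⟨hφk, hφk2⟩ := weight_compare hφs hφ.1
  have heq : (fun x => χ x * f (ℓ⁻¹ • x)) = fun x => χ x * 𝓕⁻ φ (ℓ⁻¹ • x) := by
    ext x
    rcases le_total ‖x‖ r0 with hx | hx
    · rw [h0 x hx, zero_mul, zero_mul]
    · have hr := hrep (ℓ⁻¹ • x)
      simp only at hr
      rw [← hr, chi_zero, sub_zero, one_smul]
      rw [norm_smul, norm_smul, norm_inv, norm_inv, Real.norm_of_nonneg hM0.le,
        Real.norm_of_nonneg hℓ.le, hM, inv_div]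
      have : ℓ / (r0 / 2) * (ℓ⁻¹ * ‖x‖) = 2 * (‖x‖ / r0) := by
        field_simp
      rw [this]
      have h3 : 1 ≤ ‖x‖ / r0 := (one_le_div hr0).2 hx
      linarith
  rw [heq]
  refine ⟨Loc.ext hχ hs hℓ hℓ1 hφ hφk, (H1 ℓ hℓ hℓ1 φ hφ hφk).trans ?_⟩
  have h4 := (moment_le hj hφ.1 hφk).2
  have h5 : M ^ (-δ) = (r0 / 2) ^ (-δ) * ℓ ^ δ := by
    rw [hM, Real.div_rpow (by positivity) hℓ.le, Real.rpow_neg hℓ.le, div_inv_eq_mul]
  calc C1 * ∫ ξ, (1 + ‖ξ‖) ^ j * ‖φ ξ‖ ≤ C1 * (2 ^ k * (C2 * A * M ^ (-δ))) := by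
        gcongr
        exact h4.trans (hφk2.trans (by gcongr))
    _ = _ := by rw [h5]; ring

lemma fi_sub {φ g : E d → ℂ} (hφ : Integrable φ) (hg : Integrable g) (y : E d) :
    𝓕⁻ φ y = 𝓕⁻ (fun ξ => φ ξ - g ξ) y + 𝓕⁻ g y := by
  have h := integral_add (integrable_char (hφ.sub hg) y) (integrable_char hg y)
  simp only [Pi.sub_apply] at h
  rw [Real.fourierInv_eq, Real.fourierInv_eq, Real.fourierInv_eq, ← h]
  congr 1
  ext ξ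
  rw [← smul_add, sub_add_cancel]

/-- symbol bounds of a Schwartz function -/
lemma schwartz_symbol (G : SchwartzMap (E d) ℂ) (N : ℕ) : ∃ A : ℝ, 0 ≤ A ∧ ∀ i ≤ N, ∀ x : E d,
    1 ≤ ‖x‖ → ‖iteratedFDeriv ℝ i (G : E d → ℂ) x‖ ≤ A * ‖x‖ ^ (-(1:ℝ) - (i:ℝ)) := by
  choose C hC H using fun i : ℕ => G.decay (i + 1) i
  refine ⟨∑ i ∈ Finset.range (N + 1), C i, Finset.sum_nonneg fun i _ => (hC i).le, ?_⟩
  intro i hi x hx
  have hx0 : 0 < ‖x‖ := lt_of_lt_of_le one_pos hx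
  have h1 : ‖x‖ ^ (-(1:ℝ) - (i:ℝ)) = (‖x‖ ^ (i + 1))⁻¹ := by
    rw [← Real.rpow_natCast ‖x‖ (i + 1), ← Real.rpow_neg hx0.le]
    congr 1
    push_cast
    ring
  rw [h1, ← div_eq_mul_inv, le_div_iff₀ (by positivity), mul_comm]
  refine (H i x).trans ?_
  exact Finset.single_le_sum (f := C) (fun i _ => (hC i).le) (Finset.mem_range.2 (by omega))

/-- **F (general form).** -/
theorem tail_tendsto {χ : E d → ℂ} (hχ : ContDiff ℝ ∞ χ) (hs : ∀ x, 3 ≤ ‖x‖ → χ x = 0) {r0 : ℝ}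
    (hr0 : 0 < r0) (h0 : ∀ x, ‖x‖ ≤ r0 → χ x = 0) {j : ℕ} (hj : j ≤ k) {φ : E d → ℂ}
    (hφ : Integrable φ) (hφk : Integrable (fun ξ => (1 + ‖ξ‖) ^ k * ‖φ ξ‖)) :
    Tendsto (fun ℓ : ℝ => Nn ℓ j (per k (fun x => χ x * 𝓕⁻ φ (ℓ⁻¹ • x)))) (𝓝[>] 0) (𝓝 0) := by
  obtain ⟨C1, hC1, H1⟩ := Nn_ext_le (k := k) hχ hs hj
  obtain ⟨C2, hC2, H2⟩ := tail_symbol hχ hs hr0 h0 hj one_pos
  rw [Metric.tendsto_nhdsWithin_nhds]
  intro ε hε
  obtain ⟨g, hg1, hg2, hg3⟩ := exists_smooth_approx (k := k) hφ.1 hφk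
    (show 0 < ε / (2 * C1) by positivity)
  have hgi : Integrable g := hg2.continuous.integrable_of_hasCompactSupport hg1
  have hgk : Integrable (fun ξ => (1 + ‖ξ‖) ^ k * ‖g ξ‖) := by
    apply Continuous.integrable_of_hasCompactSupport
    · exact (by fun_prop : Continuous fun ξ : E d => (1 + ‖ξ‖) ^ k).mul hg2.continuous.norm
    · exact hg1.norm.mul_left
  -- the difference
  have hdi : Integrable (fun ξ => φ ξ - g ξ) := hφ.sub hgi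
  have hdk : Integrable (fun ξ => (1 + ‖ξ‖) ^ k * ‖φ ξ - g ξ‖) := by
    refine (hφk.add hgk).mono ((Continuous.aestronglyMeasurable (by fun_prop)).mul hdi.1.norm)
      (Eventually.of_forall fun ξ => ?_)
    simp only [Pi.add_apply]
    rw [Real.norm_of_nonneg (by positivity), Real.norm_of_nonneg (by positivity), ← mul_add]
    gcongr
    exact norm_sub_le _ _
  -- the smooth part
  set G : SchwartzMap (E d) ℂ := 𝓕⁻ (hg1.toSchwartzMap hg2) with hG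
  have hGg : ∀ y, G y = 𝓕⁻ g y := by
    intro y
    rw [hG, SchwartzMap.fourierInv_coe]
    rfl
  obtain ⟨A, hA, HA⟩ := schwartz_symbol G (nd (E d) k)
  have hlin : Tendsto (fun ℓ : ℝ => C2 * A * ℓ ^ (1:ℝ)) (𝓝 0) (𝓝 0) := by
    have : Tendsto (fun ℓ : ℝ => C2 * A * ℓ ^ (1:ℝ)) (𝓝 0) (𝓝 (C2 * A * (0:ℝ) ^ (1:ℝ))) := by
      simp only [Real.rpow_one]
      exact (continuous_const.mul continuous_id).tendsto 0
    simpa using this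
  obtain ⟨η, hη, Hη⟩ := (Metric.tendsto_nhds_nhds.1 hlin) (ε / 2) (by positivity)
  refine ⟨min η (min 1 (r0 / 2)), by positivity, ?_⟩
  intro ℓ hℓ hdist
  have hℓ0 : 0 < ℓ := hℓ
  rw [Real.dist_eq, sub_zero, abs_of_pos hℓ0] at hdist
  have hℓη : ℓ < η := hdist.trans_le (min_le_left _ _)
  have hℓ1 : ℓ ≤ 1 := (hdist.trans_le ((min_le_right _ _).trans (min_le_left _ _))).le
  have hℓr : ℓ ≤ r0 / 2 := (hdist.trans_le ((min_le_right _ _).trans (min_le_right _ _))).le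
  obtain ⟨hL2, hN2⟩ := H2 G A hA ((G.smooth _).of_le (by exact_mod_cast le_top)) HA ℓ hℓ0 hℓ1 hℓr
  have hL1 : Loc k (fun x => χ x * 𝓕⁻ (fun ξ => φ ξ - g ξ) (ℓ⁻¹ • x)) :=
    Loc.ext hχ hs hℓ0 hℓ1 hdi hdk
  have hsum : (fun x => χ x * 𝓕⁻ φ (ℓ⁻¹ • x))
      = fun x => χ x * 𝓕⁻ (fun ξ => φ ξ - g ξ) (ℓ⁻¹ • x) + χ x * G (ℓ⁻¹ • x) := by
    ext x
    rw [hGg, ← mul_add, ← fi_sub hφ hgi]
  rw [hsum, ← (hL1.add hL2).2, Real.dist_eq, sub_zero,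
    abs_of_nonneg (Nn_nonneg hℓ0.le j _)]
  refine (Nn_add_le hℓ0.le hℓ1 hj _ _).trans_lt ?_
  have h6 : Nn ℓ j (per k fun x => χ x * 𝓕⁻ (fun ξ => φ ξ - g ξ) (ℓ⁻¹ • x)) ≤ ε / 2 := by
    refine (H1 ℓ hℓ0 hℓ1 _ hdi hdk).trans ?_
    calc C1 * ∫ ξ, (1 + ‖ξ‖) ^ j * ‖φ ξ - g ξ‖
        ≤ C1 * (ε / (2 * C1)) := by
          gcongr
          exact (moment_le hj hdi.1 hdk).2.trans hg3
      _ = ε / 2 := by field_simp
  have h7 : C2 * A * ℓ ^ (1:ℝ) < ε / 2 := by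
    have := Hη (show dist ℓ 0 < η by rw [Real.dist_eq, sub_zero, abs_of_pos hℓ0]; exact hℓη)
    rw [Real.dist_eq, sub_zero] at this
    exact (le_abs_self _).trans_lt this
  linarith

/-- **F** for functions in the Wiener class. -/
theorem tail_tendsto_rep {χ : E d → ℂ} (hχ : ContDiff ℝ ∞ χ) (hs : ∀ x, 3 ≤ ‖x‖ → χ x = 0)
    {r0 : ℝ} (hr0 : 0 < r0) (h0 : ∀ x, ‖x‖ ≤ r0 → χ x = 0) {j : ℕ} (hj : j ≤ k) {f : E d → ℂ}
    {C : ℝ} (hf : WienerRep k f C) :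
    Tendsto (fun ℓ : ℝ => Nn ℓ j (per k (fun x => χ x * f (ℓ⁻¹ • x)))) (𝓝[>] 0) (𝓝 0) := by
  obtain ⟨φ, hφ, hφs, hrep, -⟩ := hf
  have := tail_tendsto hχ hs hr0 h0 hj hφ (weight_compare hφs hφ.1).1
  simpa only [hrep] using this

end Vale.Agent.P139.H201
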