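import Vale.Agent.P139.H201.Ext8

/-!
# Extension from `ℝ^d` to the torus, IX: real combinations of the symmetry modes
-/

open Set Filter Topology MeasureTheory FourierTransform
open scoped ComplexConjugate ContDiff

namespace Vale.Agent.P139.H201

open Vale.Agent.P139.A Vale.Agent.P139.A.WA Vale.Agent.P139.H203 Vale.Agent.P139.BU
open Vale.Agent.P139.N Vale.Agent.P139.H730 Vale.Agent.P139.H605

variable {d k j : ℕ}

theorem Loc.zero : Loc k (fun _ : E d => (0 : ℂ)) ∧ (0 : WA d k) = per k (fun _ : E d => (0 : ℂ)) :=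
  Loc.of_ev (fun _ _ => rfl) (fun x => by rw [A.WA.ev_zero]; rfl)

theorem Loc.fsum {ι : Type*} (s : Finset ι) {G : ι → E d → ℂ} (h : ∀ i ∈ s, Loc k (G i)) :
    Loc k (fun x => ∑ i ∈ s, G i x) ∧
      ∑ i ∈ s, per k (G i) = per k (fun x => ∑ i ∈ s, G i x) := by
  classical
  induction s using Finset.induction_on with
  | empty =>
    simp only [Finset.sum_empty]
    exact Loc.zero
  | insert a s ha ih =>
    obtain ⟨h1, h2⟩ := ih fun i hi => h i (Finset.mem_insert_of_mem hi)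
    have h3 := (h a (Finset.mem_insert_self _ _)).add h1
    simp only [Finset.sum_insert ha]
    rw [h2]
    exact h3

/-- the basis of the symmetry modes -/
noncomputable def modeB (m : ℕ) (w : ℝ) (Q : E d → ℂ) : Option (Option (Fin d)) → E d → ℂ
  | none => phaseMode Q
  | some none => timeMode m w Q
  | some (some i) => pd i Q

/-- the coefficients of a real combination -/
def modeC (α : ℝ) (β : Fin d → ℝ) (γ : ℝ) : Option (Option (Fin d)) → ℝ
  | none => α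
  | some none => γ
  | some (some i) => β i

lemma modeOf_eq (m : ℕ) (w : ℝ) (Q : E d → ℂ) (α : ℝ) (β : Fin d → ℝ) (γ : ℝ) (y : E d) :
    modeOf m w Q α β γ y = ∑ i, ((modeC α β γ i : ℝ) : ℂ) * modeB m w Q i y := by
  rw [Fintype.sum_option, Fintype.sum_option]
  simp only [modeC, modeB, modeOf]
  ring

lemma sum_modeC (α : ℝ) (β : Fin d → ℝ) (γ : ℝ) :
    ∑ i, |modeC α β γ i| = |α| + ∑ i, |β i| + |γ| := by
  rw [Fintype.sum_option, Fintype.sum_option]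
  simp only [modeC]
  ring

lemma symb_modeB {m : ℕ} {w : ℝ} {Q : E d → ℂ} (hQ : IsProfile d m w Q)
    (i : Option (Option (Fin d))) : Symb (2 * aa m) (modeB m w Q i) := by
  rcases i with _ | _ | i
  · exact symb_phaseMode hQ
  · exact symb_timeMode hQ
  · exact (symb_pd hQ i).mono (by linarith)

lemma aa_pos {m : ℕ} (hm : 1 ≤ m) : 0 < aa m := by
  unfold aa
  have : (0 : ℝ) < m := by exact_mod_cast hm
  positivity

theorem rep_Q {m : ℕ} (hm : 1 ≤ m) {w : ℝ} {Q : E d → ℂ} (hQ : IsProfile d m w Q) (k : ℕ) :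
    ∃ C : ℝ, WienerRep k Q C :=
  WienerRep.of_symb (by have := aa_pos hm; positivity) (IsProfile.symb hQ) k

theorem rep_modeB {m : ℕ} (hm : 1 ≤ m) {w : ℝ} {Q : E d → ℂ} (hQ : IsProfile d m w Q)
    (i : Option (Option (Fin d))) (k : ℕ) : ∃ C : ℝ, WienerRep k (modeB m w Q i) C :=
  WienerRep.of_symb (by have := aa_pos hm; positivity) (symb_modeB hQ i) k

/-- real combinations of the modes, localised -/
theorem modeOf_loc {χ : E d → ℂ} (hχ : Cutf χ) {m : ℕ} (hm : 1 ≤ m) {w : ℝ} {Q : E d → ℂ}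
    (hQ : IsProfile d m w Q) (hj : j ≤ k) {ℓ : ℝ} (hℓ : 0 < ℓ) (hℓ1 : ℓ ≤ 1) (α : ℝ)
    (β : Fin d → ℝ) (γ : ℝ) :
    Loc k (fun x => χ x * modeOf m w Q α β γ (ℓ⁻¹ • x)) ∧
    Nn ℓ j (per k (fun x => χ x * modeOf m w Q α β γ (ℓ⁻¹ • x))) ≤
      ∑ i, |modeC α β γ i| * Nn ℓ j (per k (fun x => χ x * modeB m w Q i (ℓ⁻¹ • x))) := by
  choose C hC using fun i => rep_modeB hm hQ i k
  have hL := fun i => (Loc_rep hχ (hC i) hℓ hℓ1).smul ((modeC α β γ i : ℝ) : ℂ)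
  have hS := Loc.fsum (k := k) Finset.univ (G := fun i x => ((modeC α β γ i : ℝ) : ℂ) *
    (χ x * modeB m w Q i (ℓ⁻¹ • x))) (fun i _ => (hL i).1)
  have heq : (fun x => χ x * modeOf m w Q α β γ (ℓ⁻¹ • x))
      = fun x => ∑ i, ((modeC α β γ i : ℝ) : ℂ) * (χ x * modeB m w Q i (ℓ⁻¹ • x)) := by
    ext x
    rw [modeOf_eq, Finset.mul_sum]
    apply Finset.sum_congr rfl
    intro i _
    ring
  rw [heq]
  refine ⟨hS.1, ?_⟩
  rw [← hS.2]
  have hsum : ∀ s : Finset (Option (Option (Fin d))), Nn ℓ j (∑ i ∈ s, per k (fun x =>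
      ((modeC α β γ i : ℝ) : ℂ) * (χ x * modeB m w Q i (ℓ⁻¹ • x)))) ≤
      ∑ i ∈ s, |modeC α β γ i| * Nn ℓ j (per k (fun x => χ x * modeB m w Q i (ℓ⁻¹ • x))) := by
    classical
    intro s
    induction s using Finset.induction_on with
    | empty =>
      simp only [Finset.sum_empty]
      have : Nn ℓ j (0 : WA d k) = 0 := by
        unfold Nn
        simp
      exact this.le
    | insert a s ha ih =>
      rw [Finset.sum_insert ha, Finset.sum_insert ha]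
      refine (Nn_add_le hℓ.le hℓ1 hj _ _).trans (add_le_add ?_ ih)
      rw [← (hL a).2, Nn_smul, Complex.norm_real, Real.norm_eq_abs]
  exact hsum Finset.univ

/-- **Mode mismatch**: `cA` (curve) against `c2` (extension operator). -/
theorem modeOf_mismatch {m : ℕ} (hm : 1 ≤ m) {w : ℝ} {Q : E d → ℂ} (hQ : IsProfile d m w Q)
    (hj : j ≤ k) : ∃ θ : ℝ → ℝ, Tendsto θ (𝓝[>] 0) (𝓝 0) ∧ ∀ ℓ, 0 < ℓ → ℓ ≤ 1 →
      ∀ (α : ℝ) (β : Fin d → ℝ) (γ : ℝ) (f : X1 d j),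
        (∀ y, BU.ev f y = modeOf m w Q α β γ y) →
        Nn ℓ j (dn hj (Up k (modeOf m w Q α β γ) ℓ) - ExL c2 j ℓ f)
          ≤ θ ℓ * (|α| + ∑ i, |β i| + |γ|) := by
  choose C hC using fun i => rep_modeB hm hQ i k
  refine ⟨fun ℓ => ∑ i, Nn ℓ j (per k (fun x => (cA x - c2 x) * modeB m w Q i (ℓ⁻¹ • x))), ?_, ?_⟩
  · have : Tendsto (fun ℓ : ℝ => ∑ i : Option (Option (Fin d)), Nn ℓ j (per k
        (fun x => (cA x - c2 x) * modeB m w Q i (ℓ⁻¹ • x)))) (𝓝[>] 0)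
        (𝓝 (∑ _i : Option (Option (Fin d)), (0 : ℝ))) :=
      tendsto_finsetSum _ fun i _ => tail_Up (hC i) hj
    simpa using this
  · intro ℓ hℓ hℓ1 α β γ f hf
    obtain ⟨h1, h2⟩ := modeOf_loc cutf_sub hm hQ hj hℓ hℓ1 α β γ
    have h3 := (modeOf_loc cutf_cA hm hQ hj hℓ hℓ1 α β γ).1
    have heq : Nn ℓ j (dn hj (Up k (modeOf m w Q α β γ) ℓ) - ExL c2 j ℓ f)
        = Nn ℓ j (per k (fun x => (cA x - c2 x) * modeOf m w Q α β γ (ℓ⁻¹ • x))) := by
      rw [← Nn_dn hj ℓ j (per k _)]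
      congr 1
      apply A.WA.ev_injective
      intro x
      rw [ev_sub', ev_dn, ev_ExL cutf_c2 hℓ hℓ1, ev_dn, Up, h3.ev_per, h1.ev_per, perF, perF,
        perF, hf]
      ring
    rw [heq]
    refine h2.trans ?_
    rw [← sum_modeC, Finset.mul_sum]
    apply Finset.sum_le_sum
    intro i _
    rw [mul_comm]
    refine mul_le_mul_of_nonneg_right ?_ (abs_nonneg _)
    exact Finset.single_le_sum (f := fun i => Nn ℓ j (per k
      (fun x => (cA x - c2 x) * modeB m w Q i (ℓ⁻¹ • x)))) (fun i _ => Nn_nonneg hℓ.le j _)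
      (Finset.mem_univ i)

/-- uniform bound of the mode curves -/
theorem Nn_modeOf_le {χ : E d → ℂ} (hχ : Cutf χ) {m : ℕ} (hm : 1 ≤ m) {w : ℝ} {Q : E d → ℂ}
    (hQ : IsProfile d m w Q) (hj : j ≤ k) : ∃ C : ℝ, 0 < C ∧ ∀ ℓ, 0 < ℓ → ℓ ≤ 1 →
      ∀ (α : ℝ) (β : Fin d → ℝ) (γ : ℝ),
        Nn ℓ j (per k (fun x => χ x * modeOf m w Q α β γ (ℓ⁻¹ • x)))
          ≤ C * (|α| + ∑ i, |β i| + |γ|) := by
  choose C hC using fun i => rep_modeB hm hQ i k
  obtain ⟨C', hC', H⟩ := Nn_rep_le (d := d) hχ hj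
  have hC0 : ∀ i, 0 ≤ C i := fun i => (hC i).nonneg
  have hS : 0 ≤ ∑ i, C' * C i := Finset.sum_nonneg fun i _ => mul_nonneg hC'.le (hC0 i)
  refine ⟨(∑ i, C' * C i) + 1, by positivity, fun ℓ hℓ hℓ1 α β γ => ?_⟩
  refine (modeOf_loc hχ hm hQ hj hℓ hℓ1 α β γ).2.trans ?_
  rw [← sum_modeC, Finset.mul_sum]
  apply Finset.sum_le_sum
  intro i _
  rw [mul_comm]
  refine mul_le_mul_of_nonneg_right ?_ (abs_nonneg _)
  refine (H _ _ (hC i) ℓ hℓ hℓ1).trans ?_
  have := Finset.single_le_sum (f := fun i => C' * C i)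
    (fun i _ => mul_nonneg hC'.le (hC0 i)) (Finset.mem_univ i)
  linarith

end Vale.Agent.P139.H201
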