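import Vale.Agent.P139.H201.Wiener3

/-!
# Symbols of negative order belong to the Wiener classes (dyadic decomposition)
-/

open MeasureTheory Real FourierTransform Filter Topology Metric
open scoped ContDiff

namespace Vale.Agent.P139.H201

section cut

variable (E : Type*) [NormedAddCommGroup E] [InnerProductSpace ℝ E] [FiniteDimensional ℝ E]

/-- a fixed bump function, `1` on the closed unit ball and supported in the ball of radius `2` -/
noncomputable def chiB : ContDiffBump (0 : E) := ⟨1, 2, one_pos, one_lt_two⟩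

/-- the cut-off as a function -/
noncomputable def chi : E → ℝ := fun x => chiB E x

/-- the dyadic piece -/
noncomputable def psi : E → ℝ := fun x => chi E x - chi E ((2:ℝ) • x)

variable {E}

lemma chi_one {x : E} (hx : ‖x‖ ≤ 1) : chi E x = 1 := by
  apply (chiB E).one_of_mem_closedBall
  rw [mem_closedBall_zero_iff]
  exact hx

lemma chi_zero {x : E} (hx : 2 ≤ ‖x‖) : chi E x = 0 := by
  apply (chiB E).zero_of_le_dist
  rw [dist_zero_right]
  exact hx

lemma chi_nonneg (x : E) : 0 ≤ chi E x := (chiB E).nonneg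

lemma chi_le_one (x : E) : chi E x ≤ 1 := (chiB E).le_one

lemma contDiff_chi {n : ℕ∞ω} (hn : n ≤ ∞) : ContDiff ℝ n (chi E) := by
  have : ContDiff ℝ ((⊤ : ℕ∞) : ℕ∞ω) (chi E) := (chiB E).contDiff
  exact this.of_le hn

lemma contDiff_psi {n : ℕ∞ω} (hn : n ≤ ∞) : ContDiff ℝ n (psi E) := by
  apply ContDiff.sub (contDiff_chi hn)
  exact (contDiff_chi hn).comp (contDiff_const_smul (2:ℝ))

lemma psi_zero_of_le {x : E} (hx : ‖x‖ ≤ 1 / 2) : psi E x = 0 := by
  rw [psi, chi_one (by linarith), chi_one, sub_self]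
  rw [norm_smul, Real.norm_eq_abs, abs_of_pos (by norm_num : (0:ℝ) < 2)]
  linarith

lemma psi_zero_of_ge {x : E} (hx : 2 ≤ ‖x‖) : psi E x = 0 := by
  rw [psi, chi_zero hx, chi_zero, sub_self]
  rw [norm_smul, Real.norm_eq_abs, abs_of_pos (by norm_num : (0:ℝ) < 2)]
  linarith

lemma iteratedFDeriv_psi_zero (i : ℕ) {x : E} (hx : ‖x‖ < 1 / 2) :
    iteratedFDeriv ℝ i (psi E) x = 0 := by
  have h : psi E =ᶠ[𝓝 x] fun _ => 0 := by
    have : {y : E | ‖y‖ < 1 / 2} ∈ 𝓝 x := (isOpen_lt continuous_norm continuous_const).mem_nhds hx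
    filter_upwards [this] with y hy
    exact psi_zero_of_le (le_of_lt hy)
  rw [(h.iteratedFDeriv ℝ i).eq_of_nhds]
  exact congrFun iteratedFDeriv_fun_zero x

/-- uniform bounds for the derivatives of the cut-offs -/
lemma exists_cut_bound (n : ℕ) : ∃ K : ℝ, 1 ≤ K ∧ ∀ i ≤ n, ∀ x : E,
    ‖iteratedFDeriv ℝ i (chi E) x‖ ≤ K ∧ ‖iteratedFDeriv ℝ i (psi E) x‖ ≤ K := by
  have hc1 : HasCompactSupport (chi E) := (chiB E).hasCompactSupport
  have hc2 : HasCompactSupport (psi E) := by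
    apply HasCompactSupport.of_support_subset_isCompact (isCompact_closedBall (0 : E) 2)
    intro x hx
    rw [mem_closedBall_zero_iff]
    by_contra hlt
    exact hx (psi_zero_of_ge (not_le.mp hlt).le)
  have h1 : ∀ i : ℕ, ∃ K : ℝ, ∀ x : E, ‖iteratedFDeriv ℝ i (chi E) x‖ ≤ K := by
    intro i
    obtain ⟨K, hK⟩ := (hc1.iteratedFDeriv (𝕜 := ℝ) i).exists_bound_of_continuous
      ((contDiff_chi (n := i) (by exact_mod_cast le_top)).continuous_iteratedFDeriv le_rfl)
    exact ⟨K, hK⟩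
  have h2 : ∀ i : ℕ, ∃ K : ℝ, ∀ x : E, ‖iteratedFDeriv ℝ i (psi E) x‖ ≤ K := by
    intro i
    obtain ⟨K, hK⟩ := (hc2.iteratedFDeriv (𝕜 := ℝ) i).exists_bound_of_continuous
      ((contDiff_psi (n := i) (by exact_mod_cast le_top)).continuous_iteratedFDeriv le_rfl)
    exact ⟨K, hK⟩
  choose K1 hK1 using h1
  choose K2 hK2 using h2
  refine ⟨1 + ∑ i ∈ Finset.range (n + 1), (|K1 i| + |K2 i|), ?_, ?_⟩
  · have : 0 ≤ ∑ i ∈ Finset.range (n + 1), (|K1 i| + |K2 i|) :=
      Finset.sum_nonneg fun i _ => by positivity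
    linarith
  · intro i hi x
    have hmem : i ∈ Finset.range (n + 1) := Finset.mem_range.mpr (Nat.lt_succ_of_le hi)
    have hle := Finset.single_le_sum (f := fun i => |K1 i| + |K2 i|)
      (fun i _ => by positivity) hmem
    have a1 := (hK1 i x).trans (le_abs_self _)
    have a2 := (hK2 i x).trans (le_abs_self _)
    have b1 := abs_nonneg (K1 i)
    have b2 := abs_nonneg (K2 i)
    exact ⟨by linarith, by linarith⟩

end cut

variable {E : Type*} [NormedAddCommGroup E] [InnerProductSpace ℝ E] [FiniteDimensional ℝ E]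
  [MeasurableSpace E] [BorelSpace E]
variable {F : Type*} [NormedAddCommGroup F] [NormedSpace ℂ F]

lemma sum_choose_real (j : ℕ) : ∑ i ∈ Finset.range (j + 1), ((j.choose i : ℕ) : ℝ) = 2 ^ j := by
  exact_mod_cast Nat.sum_range_choose j

omit [MeasurableSpace E] [BorelSpace E] in
/-- derivatives of a rescaled dyadic piece -/
lemma piece_bound (n : ℕ) {K : ℝ} (hK1 : 1 ≤ K)
    (hK : ∀ i ≤ n, ∀ x : E, ‖iteratedFDeriv ℝ i (psi E) x‖ ≤ K) {δ : ℝ} (hδ : 0 < δ)
    {f : E → F} {A M R : ℝ} (hA : 0 ≤ A) (hR : 0 < R) (hRM : M ≤ R / 2)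
    (hf : ContDiff ℝ n f)
    (hbd : ∀ j ≤ n, ∀ x, M ≤ ‖x‖ → ‖iteratedFDeriv ℝ j f x‖ ≤ A * ‖x‖ ^ (-δ - (j:ℝ)))
    (j : ℕ) (hj : j ≤ n) (y : E) :
    ‖iteratedFDeriv ℝ j (fun y => psi E y • f (R • y)) y‖
      ≤ 2 ^ n * K * (2:ℝ) ^ (δ + n) * A * R ^ (-δ) := by
  have hfR : ContDiff ℝ n (fun y : E => f (R • y)) := hf.comp (contDiff_const_smul R)
  have hψ : ContDiff ℝ n (psi E) := contDiff_psi (by exact_mod_cast le_top)
  have hLeib := norm_iteratedFDeriv_smul_le (𝕜 := ℝ) (𝕜' := ℝ) hψ hfR y (n := j)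
    (by exact_mod_cast hj)
  refine hLeib.trans ?_
  have hterm : ∀ i ∈ Finset.range (j + 1),
      ((j.choose i : ℕ) : ℝ) * ‖iteratedFDeriv ℝ i (psi E) y‖ *
        ‖iteratedFDeriv ℝ (j - i) (fun y : E => f (R • y)) y‖
      ≤ ((j.choose i : ℕ) : ℝ) * (K * (2:ℝ) ^ (δ + n) * A * R ^ (-δ)) := by
    intro i hi
    have hij : i ≤ j := Nat.lt_succ_iff.mp (Finset.mem_range.mp hi)
    rw [mul_assoc]
    refine mul_le_mul_of_nonneg_left ?_ (Nat.cast_nonneg _)
    by_cases hy : ‖y‖ < 1 / 2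
    · rw [iteratedFDeriv_psi_zero i hy, norm_zero, zero_mul]
      positivity
    · push Not at hy
      have hy0 : 0 < ‖y‖ := by linarith
      set k := j - i with hk
      have hkn : k ≤ n := by omega
      have hscale : iteratedFDeriv ℝ k (fun y : E => f (R • y)) y
          = R ^ k • iteratedFDeriv ℝ k f (R • y) := by
        have := congrFun (iteratedFDeriv_comp_const_smul (𝕜 := ℝ) (i := k) R
          (hf.of_le (by exact_mod_cast hkn))) y
        exact this
      have hnRy : ‖R • y‖ = R * ‖y‖ := by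
        rw [norm_smul, Real.norm_of_nonneg hR.le]
      have hM : M ≤ ‖R • y‖ := by
        rw [hnRy]
        have : R / 2 ≤ R * ‖y‖ := by
          have := mul_le_mul_of_nonneg_left hy hR.le
          linarith
        linarith
      have hb := hbd k hkn (R • y) hM
      rw [hscale, norm_smul, norm_pow, Real.norm_of_nonneg hR.le]
      have hrp : R ^ k * (A * ‖R • y‖ ^ (-δ - (k:ℝ))) = A * R ^ (-δ) * ‖y‖ ^ (-δ - (k:ℝ)) := by
        rw [hnRy, Real.mul_rpow hR.le hy0.le]
        have : R ^ (-δ - (k:ℝ)) = R ^ (-δ) / R ^ k := by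
          rw [Real.rpow_sub hR, Real.rpow_natCast]
        rw [this]
        field_simp
      have hyp : ‖y‖ ^ (-δ - (k:ℝ)) ≤ (2:ℝ) ^ (δ + n) := by
        have h1 : ‖y‖ ^ (-δ - (k:ℝ)) ≤ (1/2:ℝ) ^ (-δ - (k:ℝ)) := by
          apply Real.rpow_le_rpow_of_nonpos (by norm_num) hy
          have : (0:ℝ) ≤ k := Nat.cast_nonneg _
          linarith
        have h2 : (1/2:ℝ) ^ (-δ - (k:ℝ)) = (2:ℝ) ^ (δ + k) := by
          rw [one_div, Real.inv_rpow (by norm_num), ← Real.rpow_neg (by norm_num)]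
          congr 1
          ring
        rw [h2] at h1
        refine h1.trans (Real.rpow_le_rpow_of_exponent_le (by norm_num) ?_)
        have : (k:ℝ) ≤ n := by exact_mod_cast hkn
        linarith
      calc ‖iteratedFDeriv ℝ i (psi E) y‖ * (R ^ k * ‖iteratedFDeriv ℝ k f (R • y)‖)
          ≤ K * (R ^ k * (A * ‖R • y‖ ^ (-δ - (k:ℝ)))) := by
            gcongr
            exact hK i (hij.trans hj) y
        _ = K * (A * R ^ (-δ) * ‖y‖ ^ (-δ - (k:ℝ))) := by rw [hrp]
        _ ≤ K * (A * R ^ (-δ) * (2:ℝ) ^ (δ + n)) := by gcongr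
        _ = K * (2:ℝ) ^ (δ + n) * A * R ^ (-δ) := by ring
  refine (Finset.sum_le_sum hterm).trans ?_
  rw [← Finset.sum_mul, sum_choose_real]
  have h2j : (2:ℝ) ^ j ≤ 2 ^ n := pow_le_pow_right₀ (by norm_num) hj
  calc (2:ℝ) ^ j * (K * (2:ℝ) ^ (δ + n) * A * R ^ (-δ))
      ≤ 2 ^ n * (K * (2:ℝ) ^ (δ + n) * A * R ^ (-δ)) := by
        gcongr
    _ = _ := by ring

/-- **Tail lemma.**  If `f` is a symbol of order `-δ` in `‖x‖ ≥ M ≥ 1`, the function
`(1 - χ(x / M)) f` has Wiener norm `O(M ^ (-δ))`. -/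
theorem WienerRep.symbol_tail (E : Type*) [NormedAddCommGroup E]
    [InnerProductSpace ℝ E] [FiniteDimensional ℝ E] [MeasurableSpace E] [BorelSpace E]
    (F : Type*) [NormedAddCommGroup F] [NormedSpace ℂ F] [CompleteSpace F]
    (s : ℕ) {δ : ℝ} (hδ : 0 < δ) :
    ∃ C : ℝ, 0 < C ∧ ∀ (f : E → F) (A M : ℝ), 0 ≤ A → 1 ≤ M → ContDiff ℝ (nd E s) f →
      (∀ j ≤ nd E s, ∀ x, M ≤ ‖x‖ → ‖iteratedFDeriv ℝ j f x‖ ≤ A * ‖x‖ ^ (-δ - (j:ℝ))) →
      WienerRep s (fun x => (1 - chi E (M⁻¹ • x)) • f x) (C * A * M ^ (-δ)) := by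
  obtain ⟨C1, hC1, H1⟩ := WienerRep.of_supp E F s 2
  obtain ⟨K, hK1, hK⟩ := exists_cut_bound (E := E) (nd E s)
  set n := nd E s with hn
  set C2 : ℝ := 2 ^ n * K * (2:ℝ) ^ (δ + n) with hC2
  have hC2pos : 0 < C2 := by positivity
  set q : ℝ := (2:ℝ) ^ (-δ) with hq
  have hq0 : 0 < q := by positivity
  have hq1 : q < 1 := by
    rw [hq]
    exact Real.rpow_lt_one_of_one_lt_of_neg (by norm_num) (by linarith)
  set S : ℝ := ∑' j : ℕ, q ^ (j + 1) with hS
  have hsum : Summable fun j : ℕ => q ^ (j + 1) := by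
    simpa [pow_succ] using (summable_geometric_of_lt_one hq0.le hq1).mul_right q
  have hS0 : 0 ≤ S := tsum_nonneg fun j => by positivity
  refine ⟨C1 * C2 * S + 1, by positivity, ?_⟩
  intro f A M hA hM hf hbd
  have hM0 : 0 < M := lt_of_lt_of_le one_pos hM
  -- the pieces
  set R : ℕ → ℝ := fun j => 2 ^ (j + 1) * M with hR
  have hR1 : ∀ j, 1 ≤ R j := by
    intro j
    rw [hR]
    have : (1:ℝ) ≤ 2 ^ (j + 1) := one_le_pow₀ (by norm_num)
    nlinarith
  have hR0 : ∀ j, 0 < R j := fun j => lt_of_lt_of_le one_pos (hR1 j)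
  have hRM : ∀ j, M ≤ R j / 2 := by
    intro j
    rw [hR]
    simp only [pow_succ]
    have : (1:ℝ) ≤ 2 ^ j := one_le_pow₀ (by norm_num)
    nlinarith
  have hRpow : ∀ j, (R j) ^ (-δ) = q ^ (j + 1) * M ^ (-δ) := by
    intro j
    rw [hR]
    simp only
    rw [Real.mul_rpow (by positivity) hM0.le, hq, ← Real.rpow_natCast ((2:ℝ) ^ (-δ)) (j+1),
      ← Real.rpow_mul (by norm_num), ← Real.rpow_natCast (2:ℝ) (j+1),
      ← Real.rpow_mul (by norm_num)]
    congr 2
    ring
  set c : ℕ → ℝ := fun j => C1 * (C2 * A * (R j) ^ (-δ)) with hc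
  have hcsum : Summable c := by
    have : c = fun j => (C1 * C2 * A * M ^ (-δ)) * q ^ (j + 1) := by
      ext j
      rw [hc]
      simp only
      rw [hRpow]
      ring
    rw [this]
    exact hsum.mul_left _
  have hctsum : ∑' j, c j = C1 * C2 * A * M ^ (-δ) * S := by
    have : c = fun j => (C1 * C2 * A * M ^ (-δ)) * q ^ (j + 1) := by
      ext j
      rw [hc]
      simp only
      rw [hRpow]
      ring
    rw [this, tsum_mul_left]
  have hpieces : ∀ j, WienerRep s (fun x => psi E ((R j)⁻¹ • x) • f x) (c j) := by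
    intro j
    have hg : WienerRep s (fun y => psi E y • f (R j • y)) (c j) := by
      apply H1
      · positivity
      · exact (contDiff_psi (by exact_mod_cast le_top)).smul (hf.comp (contDiff_const_smul (R j)))
      · intro x hx
        rw [psi_zero_of_ge hx.le, zero_smul]
      · intro i hi x
        exact piece_bound n hK1 (fun i hi x => (hK i hi x).2) hδ hA (hR0 j) (hRM j) hf hbd i hi x
    have := hg.dilate (hR1 j)
    convert this using 2 with x
    rw [smul_smul, mul_inv_cancel₀ (hR0 j).ne', one_smul]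
  have hlim : ∀ x, Tendsto (fun N => ∑ j ∈ Finset.range N, psi E ((R j)⁻¹ • x) • f x) atTop
      (𝓝 ((1 - chi E (M⁻¹ • x)) • f x)) := by
    intro x
    have htel : ∀ N, ∑ j ∈ Finset.range N, psi E ((R j)⁻¹ • x) • f x
        = (chi E (((2:ℝ) ^ N * M)⁻¹ • x) - chi E (M⁻¹ • x)) • f x := by
      intro N
      rw [← Finset.sum_smul]
      congr 1
      have hps : ∀ j, psi E ((R j)⁻¹ • x)
          = chi E (((2:ℝ) ^ (j+1) * M)⁻¹ • x) - chi E (((2:ℝ) ^ j * M)⁻¹ • x) := by
        intro j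
        rw [psi, hR, smul_smul]
        simp only
        congr 3
        rw [pow_succ]
        field_simp
      simp_rw [hps]
      rw [Finset.sum_range_sub (fun j => chi E (((2:ℝ) ^ j * M)⁻¹ • x))]
      simp
    simp_rw [htel]
    apply tendsto_const_nhds.congr'
    have hev : ∀ᶠ N : ℕ in atTop, ‖x‖ ≤ 2 ^ N * M := by
      have : Tendsto (fun N : ℕ => (2:ℝ) ^ N * M) atTop atTop :=
        (tendsto_pow_atTop_atTop_of_one_lt (by norm_num)).atTop_mul_const hM0
      exact this.eventually_ge_atTop _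
    filter_upwards [hev] with N hN
    congr 2
    symm
    apply chi_one
    rw [norm_smul, norm_inv, Real.norm_of_nonneg (by positivity), inv_mul_le_iff₀ (by positivity)]
    simpa using hN
  have hres := WienerRep.tsum hpieces hcsum hlim
  apply hres.mono
  rw [hctsum]
  calc C1 * C2 * A * M ^ (-δ) * S = (C1 * C2 * S) * (A * M ^ (-δ)) := by ring
    _ ≤ (C1 * C2 * S + 1) * (A * M ^ (-δ)) := by
        gcongr
        linarith
    _ = _ := by ring

/-- **Symbol lemma.** Symbols of negative order `-δ` belong to the Wiener class. -/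
theorem WienerRep.symbol (E : Type*) [NormedAddCommGroup E]
    [InnerProductSpace ℝ E] [FiniteDimensional ℝ E] [MeasurableSpace E] [BorelSpace E]
    (F : Type*) [NormedAddCommGroup F] [NormedSpace ℂ F] [CompleteSpace F]
    (s : ℕ) {δ : ℝ} (hδ : 0 < δ) :
    ∃ C : ℝ, 0 < C ∧ ∀ (f : E → F) (A : ℝ), 0 ≤ A → ContDiff ℝ (nd E s) f →
      (∀ j ≤ nd E s, ∀ x, ‖iteratedFDeriv ℝ j f x‖ ≤ A * (1 + ‖x‖) ^ (-δ - (j:ℝ))) →
      WienerRep s f (C * A) := by
  obtain ⟨C1, hC1, H1⟩ := WienerRep.of_supp E F s 2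
  obtain ⟨C3, hC3, H3⟩ := WienerRep.symbol_tail E F s hδ
  obtain ⟨K, hK1, hK⟩ := exists_cut_bound (E := E) (nd E s)
  set n := nd E s with hn
  refine ⟨C1 * (2 ^ n * K) + C3, by positivity, ?_⟩
  intro f A hA hf hbd
  have htail := H3 f A 1 hA le_rfl hf (by
    intro j hj x hx
    refine (hbd j hj x).trans (mul_le_mul_of_nonneg_left ?_ hA)
    apply Real.rpow_le_rpow_of_nonpos (by linarith) (by linarith)
    have : (0:ℝ) ≤ j := Nat.cast_nonneg _
    linarith)
  have hbd1 : ∀ j ≤ n, ∀ x, ‖iteratedFDeriv ℝ j f x‖ ≤ A := by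
    intro j hj x
    refine (hbd j hj x).trans ?_
    have : (1 + ‖x‖) ^ (-δ - (j:ℝ)) ≤ 1 := by
      apply Real.rpow_le_one_of_one_le_of_nonpos (by linarith [norm_nonneg x])
      have : (0:ℝ) ≤ j := Nat.cast_nonneg _
      linarith
    calc A * (1 + ‖x‖) ^ (-δ - (j:ℝ)) ≤ A * 1 := by gcongr
      _ = A := mul_one _
  have hcore : WienerRep s (fun x => chi E x • f x) (C1 * (2 ^ n * K * A)) := by
    apply H1
    · positivity
    · exact (contDiff_chi (by exact_mod_cast le_top)).smul hf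
    · intro x hx
      rw [chi_zero hx.le, zero_smul]
    · intro j hj x
      have hLeib := norm_iteratedFDeriv_smul_le (𝕜 := ℝ) (𝕜' := ℝ)
        (contDiff_chi (E := E) (n := n) (by exact_mod_cast le_top)) hf x (n := j)
        (by exact_mod_cast hj)
      refine hLeib.trans ?_
      have hterm : ∀ i ∈ Finset.range (j + 1),
          ((j.choose i : ℕ) : ℝ) * ‖iteratedFDeriv ℝ i (chi E) x‖ *
            ‖iteratedFDeriv ℝ (j - i) f x‖ ≤ ((j.choose i : ℕ) : ℝ) * (K * A) := by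
        intro i hi
        have hij : i ≤ j := Nat.lt_succ_iff.mp (Finset.mem_range.mp hi)
        rw [mul_assoc]
        gcongr
        · exact (hK i (hij.trans hj) x).1
        · exact hbd1 (j - i) (by omega) x
      refine (Finset.sum_le_sum hterm).trans ?_
      rw [← Finset.sum_mul, sum_choose_real]
      have h2j : (2:ℝ) ^ j ≤ 2 ^ n := pow_le_pow_right₀ (by norm_num) hj
      calc (2:ℝ) ^ j * (K * A) ≤ 2 ^ n * (K * A) := by gcongr
        _ = _ := by ring
  have := hcore.add htail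
  convert this using 1
  · ext x
    rw [inv_one, one_smul, ← add_smul]
    simp
  · rw [Real.one_rpow]
    ring

end Vale.Agent.P139.H201
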