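import Vale.Agent.P139.H579.NDefs
import Vale.Agent.P139.H201.Wiener4

/-!
# Extension from `ℝ^d` to the torus, I: lattice sums, coefficient formula, column bound
-/

open Set Filter Topology MeasureTheory FourierTransform
open scoped ComplexConjugate ContDiff

namespace Vale.Agent.P139.H201

open Vale.Agent.P139.A Vale.Agent.P139.A.WA Vale.Agent.P139.H203 Vale.Agent.P139.BU
open Vale.Agent.P139.N

variable {d : ℕ}

/-- lattice point in Euclidean space -/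
noncomputable def latE (n : Lat d) : E d := WithLp.toLp 2 (fun j => ((n j : ℤ) : ℝ))

@[simp] lemma latE_apply (n : Lat d) (j : Fin d) : latE n j = (n j : ℝ) := rfl

lemma latE_sub (n m : Lat d) : latE (n - m) = latE n - latE m := by
  ext j
  simp [latE]

lemma norm_latE_sq (n : Lat d) : ‖latE n‖ ^ 2 = sqNorm n := by
  rw [EuclideanSpace.norm_sq_eq]
  simp [sqNorm, latE]

lemma norm_le_latE (n : Lat d) : ‖n‖ ≤ ‖latE n‖ := by
  refine (pi_norm_le_iff_of_nonneg (norm_nonneg _)).2 fun j => ?_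
  have h : ‖latE n j‖ ≤ ‖latE n‖ := PiLp.norm_apply_le _ j
  calc ‖n j‖ = ‖latE n j‖ := by
        rw [latE_apply, Int.norm_eq_abs, Real.norm_eq_abs]
    _ ≤ _ := h

lemma one_add_sqNorm_le (n : Lat d) : 1 + sqNorm n ≤ (1 + ‖latE n‖) ^ 2 := by
  rw [← norm_latE_sq]
  nlinarith [norm_nonneg (latE n)]

/-- uniform lattice sums -/
theorem lat_sum (d : ℕ) : ∃ C : ℝ, 0 < C ∧ ∀ η : E d,
    Summable (fun n : Lat d => ((1 + ‖(2 * Real.pi)⁻¹ • latE n - η‖) ^ (2 * (d + 1)))⁻¹) ∧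
    ∑' n : Lat d, ((1 + ‖(2 * Real.pi)⁻¹ • latE n - η‖) ^ (2 * (d + 1)))⁻¹ ≤ C := by
  have hpi : 0 < 2 * Real.pi := by positivity
  set c : ℝ := 2 * Real.pi + d + 2 with hc
  have hc0 : 0 < c := by positivity
  have hS : Summable fun n : Lat d => ((1 + sqNorm n) ^ (d + 1))⁻¹ :=
    summable_inv_weight (d := d) (k := d + 1) (by omega)
  refine ⟨c ^ (2 * (d + 1)) * CS d (d + 1) + 1, by
    have := CS_nonneg d (d + 1)
    positivity, ?_⟩
  intro η
  set m0 : Lat d := fun j => round (2 * Real.pi * η j) with hm0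
  -- the distance to the rounded point
  have hround : ‖(2 * Real.pi) • η - latE m0‖ ≤ d + 1 := by
    have hsq : ‖(2 * Real.pi) • η - latE m0‖ ^ 2 ≤ ((d : ℝ) + 1) ^ 2 := by
      rw [EuclideanSpace.norm_sq_eq]
      calc ∑ j, ‖((2 * Real.pi) • η - latE m0) j‖ ^ 2 ≤ ∑ _j : Fin d, (1 : ℝ) := by
            apply Finset.sum_le_sum
            intro j _
            have h1 : ((2 * Real.pi) • η - latE m0) j = 2 * Real.pi * η j - round (2 * Real.pi * η j) := by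
              simp [hm0, latE]
            rw [h1, Real.norm_eq_abs, sq_abs]
            have h2 := abs_sub_round (2 * Real.pi * η j)
            have h3 := abs_nonneg (2 * Real.pi * η j - round (2 * Real.pi * η j))
            nlinarith [sq_abs (2 * Real.pi * η j - round (2 * Real.pi * η j))]
        _ = d := by simp
        _ ≤ ((d : ℝ) + 1) ^ 2 := by
            have : (0 : ℝ) ≤ d := Nat.cast_nonneg _
            nlinarith
    exact le_of_sq_le_sq hsq (by positivity) |> fun h => h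
  have hkey : ∀ n : Lat d, 1 + ‖latE (n - m0)‖ ≤ c * (1 + ‖(2 * Real.pi)⁻¹ • latE n - η‖) := by
    intro n
    have h1 : latE (n - m0) = (2 * Real.pi) • ((2 * Real.pi)⁻¹ • latE n - η)
        + ((2 * Real.pi) • η - latE m0) := by
      rw [latE_sub, smul_sub, smul_smul, mul_inv_cancel₀ hpi.ne', one_smul]
      abel
    have h2 : ‖latE (n - m0)‖ ≤ 2 * Real.pi * ‖(2 * Real.pi)⁻¹ • latE n - η‖ + (d + 1) := by
      rw [h1]
      refine (norm_add_le _ _).trans ?_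
      rw [norm_smul, Real.norm_of_nonneg hpi.le]
      linarith
    have h3 : 0 ≤ ‖(2 * Real.pi)⁻¹ • latE n - η‖ := norm_nonneg _
    have h4 : (0 : ℝ) ≤ d := Nat.cast_nonneg _
    rw [hc]
    nlinarith
  have hterm : ∀ n : Lat d, ((1 + ‖(2 * Real.pi)⁻¹ • latE n - η‖) ^ (2 * (d + 1)))⁻¹
      ≤ c ^ (2 * (d + 1)) * ((1 + sqNorm (n - m0)) ^ (d + 1))⁻¹ := by
    intro n
    have hw := weight_pos (d + 1) (n - m0)
    have h3 : 0 ≤ ‖(2 * Real.pi)⁻¹ • latE n - η‖ := norm_nonneg _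
    have hs := sqNorm_nonneg (n - m0)
    rw [inv_le_comm₀ (by positivity) (by positivity), mul_inv, inv_inv]
    rw [inv_mul_le_iff₀ (by positivity), ← mul_pow]
    calc (1 + sqNorm (n - m0)) ^ (d + 1) ≤ ((1 + ‖latE (n - m0)‖) ^ 2) ^ (d + 1) := by
          gcongr
          exact one_add_sqNorm_le _
      _ = (1 + ‖latE (n - m0)‖) ^ (2 * (d + 1)) := by rw [← pow_mul]
      _ ≤ (c * (1 + ‖(2 * Real.pi)⁻¹ • latE n - η‖)) ^ (2 * (d + 1)) := by
          gcongr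
          exact hkey n
  have hS' : Summable fun n : Lat d => ((1 + sqNorm (n - m0)) ^ (d + 1))⁻¹ :=
    (Equiv.subRight m0).summable_iff.2 hS
  have hT : ∑' n : Lat d, ((1 + sqNorm (n - m0)) ^ (d + 1))⁻¹ = CS d (d + 1) :=
    (Equiv.subRight m0).tsum_eq (fun n : Lat d => ((1 + sqNorm n) ^ (d + 1))⁻¹)
  have hsum := Summable.of_nonneg_of_le (fun n => by positivity) hterm (hS'.mul_left _)
  refine ⟨hsum, ?_⟩
  calc ∑' n : Lat d, ((1 + ‖(2 * Real.pi)⁻¹ • latE n - η‖) ^ (2 * (d + 1)))⁻¹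
      ≤ ∑' n : Lat d, c ^ (2 * (d + 1)) * ((1 + sqNorm (n - m0)) ^ (d + 1))⁻¹ :=
        hsum.tsum_le_tsum hterm (hS'.mul_left _)
    _ = c ^ (2 * (d + 1)) * CS d (d + 1) := by rw [tsum_mul_left, hT]
    _ ≤ _ := by linarith

/-- Abstract column bound. -/
theorem col_bound {ι V : Type*} [MeasureSpace V] {a : ι → V → ℝ} {φ : V → ℂ} {Wt : V → ℝ}
    (ha0 : ∀ i ξ, 0 ≤ a i ξ) (ham : ∀ i, AEStronglyMeasurable (a i))
    (hsum : ∀ ξ, ∀ s : Finset ι, ∑ i ∈ s, a i ξ ≤ Wt ξ) (hφ : AEStronglyMeasurable φ)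
    (hint : Integrable (fun ξ => Wt ξ * ‖φ ξ‖)) :
    (∀ i, Integrable (fun ξ => a i ξ * ‖φ ξ‖)) ∧ Summable (fun i => ∫ ξ, a i ξ * ‖φ ξ‖) ∧
      ∑' i, ∫ ξ, a i ξ * ‖φ ξ‖ ≤ ∫ ξ, Wt ξ * ‖φ ξ‖ := by
  classical
  have h1 : ∀ i, Integrable (fun ξ => a i ξ * ‖φ ξ‖) := by
    intro i
    apply hint.mono ((ham i).mul hφ.norm)
    filter_upwards with ξ
    show ‖a i ξ * ‖φ ξ‖‖ ≤ _
    rw [Real.norm_of_nonneg (mul_nonneg (ha0 i ξ) (norm_nonneg _))]
    refine le_trans ?_ (le_abs_self _)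
    apply mul_le_mul_of_nonneg_right _ (norm_nonneg _)
    simpa using hsum ξ {i}
  have h2 : ∀ s : Finset ι, ∑ i ∈ s, ∫ ξ, a i ξ * ‖φ ξ‖ ≤ ∫ ξ, Wt ξ * ‖φ ξ‖ := by
    intro s
    rw [← integral_finsetSum s (fun i _ => h1 i)]
    apply integral_mono (integrable_finsetSum s fun i _ => h1 i) hint
    intro ξ
    show ∑ i ∈ s, a i ξ * ‖φ ξ‖ ≤ Wt ξ * ‖φ ξ‖
    rw [← Finset.sum_mul]
    exact mul_le_mul_of_nonneg_right (hsum ξ s) (norm_nonneg _)
  have h0 : ∀ i, 0 ≤ ∫ ξ, a i ξ * ‖φ ξ‖ := fun i =>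
    integral_nonneg fun ξ => mul_nonneg (ha0 i ξ) (norm_nonneg _)
  have h3 : Summable (fun i => ∫ ξ, a i ξ * ‖φ ξ‖) := summable_of_sum_le h0 h2
  exact ⟨h1, h3, h3.tsum_le_of_sum_le h2⟩

end Vale.Agent.P139.H201
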