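import Vale.Agent.P139.H201.Ext3

/-!
# Extension from `ℝ^d` to the torus, IV: the algebra of localised functions
-/

open Set Filter Topology MeasureTheory FourierTransform
open scoped ComplexConjugate ContDiff

namespace Vale.Agent.P139.H201

open Vale.Agent.P139.A Vale.Agent.P139.A.WA Vale.Agent.P139.H203 Vale.Agent.P139.BU
open Vale.Agent.P139.N

variable {d k : ℕ}

lemma torF_coe (G : E d → ℂ) (x : Fin d → ℝ) :
    torF G (fun i => ((x i : ℝ) : UnitAddCircle)) = perF G ((2 * Real.pi) • x) := by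
  rw [torF, perF]
  congr 2
  ext i
  symm
  show toIocMod Real.two_pi_pos (-Real.pi) (2 * Real.pi * x i) = 2 * Real.pi * repT _ i
  rw [toIocMod_eq_iff]
  have h1 : repT (fun i => ((x i : ℝ) : UnitAddCircle)) i ∈ Ioc (-(1 / 2) : ℝ) (-(1 / 2) + 1) :=
    (AddCircle.equivIoc 1 (-(1 / 2) : ℝ) ((x i : ℝ) : UnitAddCircle)).2
  have hpi := Real.pi_pos
  constructor
  · constructor
    · nlinarith [h1.1]
    · nlinarith [h1.2]
  · have h2 := coe_repT (fun i => ((x i : ℝ) : UnitAddCircle)) i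
    have h3 : ((x i - repT (fun i => ((x i : ℝ) : UnitAddCircle)) i : ℝ) : UnitAddCircle) = 0 := by
      rw [AddCircle.coe_sub, h2, sub_self]
    obtain ⟨z, hz⟩ := (AddCircle.coe_eq_zero_iff (1:ℝ)).1 h3
    refine ⟨z, ?_⟩
    rw [zsmul_eq_mul] at hz ⊢
    have : x i = repT (fun i => ((x i : ℝ) : UnitAddCircle)) i + z := by linarith
    calc 2 * Real.pi * x i
        = 2 * Real.pi * (repT (fun i => ((x i : ℝ) : UnitAddCircle)) i + z) := by rw [← this]
      _ = _ := by ring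

open scoped Pointwise in
/-- the classical Fourier coefficients of the periodisation -/
theorem fourierCoef_perF {G : E d → ℂ} (hs : ∀ x, 3 ≤ ‖x‖ → G x = 0) (n : Lat d) :
    fourierCoef (perF G) n = perCoef G n := by
  rw [← mFourierCoeff_torF hs n, UnitAddTorus.mFourierCoeff_eq_integral _ n (fun _ => (0 : ℝ))]
  set S : Set (Fin d → ℝ) := {x | ∀ i, x i ∈ Ioc (0 : ℝ) (0 + 1)} with hS
  have hSm : MeasurableSet S := MeasurableSet.univ_pi' fun i => measurableSet_Ioc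
  set H : (Fin d → ℝ) → ℂ := fun y => perF G y * expi (-n) y with hH
  have h1 : ∫ x in S, UnitAddTorus.mFourier (-n) (fun i => ((x i : ℝ) : UnitAddCircle)) •
      torF G (fun i => ((x i : ℝ) : UnitAddCircle))
      = ∫ x in S, H ((2 * Real.pi) • x) := by
    apply setIntegral_congr_fun hSm
    intro x _
    simp only
    rw [mFourier_coe, torF_coe, hH, smul_eq_mul, mul_comm]
  rw [h1, Measure.setIntegral_comp_smul_of_pos _ _ _ Real.two_pi_pos, Module.finrank_fin_fun]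
  have h2 : (2 * Real.pi) • S = Set.pi Set.univ
      (fun _ : Fin d => Ioc (0 : ℝ) (2 * Real.pi)) := by
    ext y
    rw [Set.mem_smul_set_iff_inv_smul_mem₀ Real.two_pi_pos.ne', hS, Set.mem_univ_pi,
      Set.mem_ofPred_eq]
    apply forall_congr'
    intro i
    rw [Pi.smul_apply, smul_eq_mul, Set.mem_Ioc, Set.mem_Ioc, lt_inv_mul_iff₀ Real.two_pi_pos,
      inv_mul_le_iff₀ Real.two_pi_pos, mul_zero, zero_add, mul_one]
  rw [h2]
  have h3 : ∫ x in Set.pi Set.univ (fun _ : Fin d => Ioc (0 : ℝ) (2 * Real.pi)), H x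
      = ∫ x in Icc (0 : Fin d → ℝ) (fun _ => 2 * Real.pi), H x := by
    apply setIntegral_congr_set
    exact Measure.univ_pi_Ioc_ae_eq_Icc (f := (0 : Fin d → ℝ)) (g := fun _ => 2 * Real.pi)
  rw [h3, fourierCoef, Complex.real_smul]
  congr 1
  push_cast
  ring

lemma coef_per {G : E d → ℂ} (h : Summable fun n : Lat d => W k n * ‖perCoef G n‖) (n : Lat d) :
    coef (per k G) n = perCoef G n := by
  rw [per, dif_pos h, coef_mk]

/-- `G` is supported in the ball of radius `3` and `per k G` is its periodisation. -/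
structure Loc (k : ℕ) (G : E d → ℂ) : Prop where
  supp : ∀ x, 3 ≤ ‖x‖ → G x = 0
  sum : Summable fun n : Lat d => W k n * ‖perCoef G n‖
  ev_per : ∀ x, ev (per k G) x = perF G x

/-- An element of the algebra whose values are given by `G` is `per k G`. -/
theorem Loc.of_ev {G : E d → ℂ} (hs : ∀ x, 3 ≤ ‖x‖ → G x = 0) {a : WA d k}
    (h : ∀ x, ev a x = perF G x) : Loc k G ∧ a = per k G := by
  have h1 : ∀ n, coef a n = perCoef G n := by
    intro n
    rw [← fourierCoef_perF hs n, ← fourierCoef_series a.summable_norm n]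
    congr 1
    ext x
    exact h x
  have h2 : Summable fun n : Lat d => W k n * ‖perCoef G n‖ := by
    simp_rw [← h1]
    exact a.summable
  have h3 : a = per k G := by
    ext n
    rw [coef_per h2, h1]
  exact ⟨⟨hs, h2, fun x => by rw [← h3, h x]⟩, h3⟩

theorem Loc.of_summable {G : E d → ℂ} (hG : Continuous G) (hs : ∀ x, 3 ≤ ‖x‖ → G x = 0)
    (h : Summable fun n : Lat d => W k n * ‖perCoef G n‖) : Loc k G := by
  refine ⟨hs, h, fun x => ?_⟩
  have h1 : Summable fun n : Lat d => ‖perCoef G n‖ := by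
    refine Summable.of_nonneg_of_le (fun n => norm_nonneg _) (fun n => ?_) h
    have := one_le_W (k := k) n
    have h0 := norm_nonneg (perCoef G n)
    nlinarith
  rw [ev, ← series_perCoef hG hs h1 x]
  congr 1
  ext n
  exact coef_per h n

lemma Loc.coef {G : E d → ℂ} (h : Loc k G) (n : Lat d) : coef (per k G) n = perCoef G n :=
  coef_per h.sum n

theorem Loc.mul {G H : E d → ℂ} (hG : Loc k G) (hH : Loc k H) :
    Loc k (fun x => G x * H x) ∧ per k G * per k H = per k (fun x => G x * H x) :=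
  Loc.of_ev (fun x hx => by rw [hG.supp x hx, zero_mul])
    (fun x => by rw [ev_mul, hG.ev_per, hH.ev_per]; rfl)

theorem Loc.conj {G : E d → ℂ} (hG : Loc k G) :
    Loc k (fun x => conj (G x)) ∧ conjL (per k G) = per k (fun x => conj (G x)) :=
  Loc.of_ev (fun x hx => by rw [hG.supp x hx, map_zero])
    (fun x => by rw [ev_conjL, hG.ev_per]; rfl)

theorem Loc.add {G H : E d → ℂ} (hG : Loc k G) (hH : Loc k H) :
    Loc k (fun x => G x + H x) ∧ per k G + per k H = per k (fun x => G x + H x) :=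
  Loc.of_ev (fun x hx => by rw [hG.supp x hx, hH.supp x hx, zero_add])
    (fun x => by rw [ev_add, hG.ev_per, hH.ev_per]; rfl)

theorem Loc.smul {G : E d → ℂ} (c : ℂ) (hG : Loc k G) :
    Loc k (fun x => c * G x) ∧ c • per k G = per k (fun x => c * G x) :=
  Loc.of_ev (fun x hx => by rw [hG.supp x hx, mul_zero])
    (fun x => by rw [ev_smul, hG.ev_per]; rfl)

lemma ev_sub' (a b : WA d k) (x : Fin d → ℝ) : ev (a - b) x = ev a x - ev b x := by
  have h : a - b = a + (-1 : ℂ) • b := by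
    ext n
    simp
    ring
  rw [h, ev_add, ev_smul]
  ring

theorem Loc.sub {G H : E d → ℂ} (hG : Loc k G) (hH : Loc k H) :
    Loc k (fun x => G x - H x) ∧ per k G - per k H = per k (fun x => G x - H x) :=
  Loc.of_ev (fun x hx => by rw [hG.supp x hx, hH.supp x hx, sub_zero])
    (fun x => by rw [ev_sub', hG.ev_per, hH.ev_per]; rfl)

theorem Loc.pow {G : E d → ℂ} (hG : Loc k G) (m : ℕ) :
    Loc k (fun x => G x ^ (m + 1)) ∧ per k G ^ (m + 1) = per k (fun x => G x ^ (m + 1)) :=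
  Loc.of_ev (fun x hx => by rw [hG.supp x hx]; simp)
    (fun x => by rw [ev_pow, hG.ev_per]; rfl)

/-- the nonlinearity on localised functions -/
theorem Loc.F {G : E d → ℂ} (hG : Loc k G) (m : ℕ) :
    Loc k (fun x => W1 m (G x) * G x) ∧ F m (per k G) = per k (fun x => W1 m (G x) * G x) := by
  apply Loc.of_ev (fun x hx => by rw [hG.supp x hx, mul_zero])
  intro x
  rw [A.WA.F, ev_mul, ev_pow, ev_pow, ev_conjL, hG.ev_per]
  show _ = W1 m (perF G x) * perF G x
  rw [W1]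
  ring

/-- multiplication of a localised function by an arbitrary one: only the values near the support
matter -/
theorem Loc.mul_congr {G H H' : E d → ℂ} (hG : Loc k G) (hH : Loc k H) (hH' : Loc k H')
    (h : ∀ x, G x ≠ 0 → H x = H' x) : per k G * per k H = per k G * per k H' := by
  apply ev_injective
  intro x
  rw [ev_mul, ev_mul, hG.ev_per, hH.ev_per, hH'.ev_per, perF, perF, perF]
  by_cases h0 : G (WithLp.toLp 2 (red x)) = 0
  · rw [h0, zero_mul, zero_mul]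
  · rw [h _ h0]

lemma Nn_per {G : E d → ℂ} (hG : Loc k G) (ℓ : ℝ) (j : ℕ) :
    Nn ℓ j (per k G) = ∑' n : Lat d, (1 + ℓ * ‖n‖) ^ j * ‖perCoef G n‖ := by
  rw [Nn]
  apply tsum_congr
  intro n
  rw [hG.coef]

/-- comparison of the weights -/
lemma W_le {ℓ : ℝ} (hℓ : 0 < ℓ) (hℓ1 : ℓ ≤ 1) (k : ℕ) (n : Lat d) :
    W k n ≤ (ℓ⁻¹) ^ k * (1 + ℓ * ‖n‖) ^ k := by
  rw [W, ← mul_pow]
  have hn := norm_nonneg n
  gcongr
  rw [mul_add, mul_one, ← mul_assoc, inv_mul_cancel₀ hℓ.ne', one_mul]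
  gcongr
  exact (one_le_inv₀ hℓ).2 hℓ1

/-- cut-off and rescaled Wiener function on the torus -/
theorem Loc.ext {χ : E d → ℂ} (hχ : ContDiff ℝ ∞ χ) (hs : ∀ x, 3 ≤ ‖x‖ → χ x = 0) {ℓ : ℝ}
    (hℓ : 0 < ℓ) (hℓ1 : ℓ ≤ 1) {φ : E d → ℂ} (hφ : Integrable φ)
    (hφk : Integrable (fun ξ => (1 + ‖ξ‖) ^ k * ‖φ ξ‖)) :
    Loc k (fun x => χ x * 𝓕⁻ φ (ℓ⁻¹ • x)) := by
  obtain ⟨C, hC, H⟩ := ext_bound hχ hs k
  obtain ⟨h1, _⟩ := H ℓ hℓ hℓ1 φ hφ hφk
  apply Loc.of_summable
  · apply hχ.continuous.mul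
    have h2 : Continuous (𝓕⁻ φ) := by
      have h3 : Continuous (𝓕 φ) :=
        VectorFourier.fourierIntegral_continuous Real.continuous_fourierChar
          (by exact continuous_inner) hφ
      have h4 : (𝓕⁻ φ) = fun x => 𝓕 φ (-x) := by
        ext x
        exact Real.fourierInv_eq_fourier_neg φ x
      rw [h4]
      exact h3.comp continuous_neg
    exact h2.comp (by fun_prop)
  · intro x hx
    rw [hs x hx, zero_mul]
  · refine Summable.of_nonneg_of_le (fun n => mul_nonneg (W_pos n).le (norm_nonneg _))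
      (fun n => ?_) (h1.mul_left ((ℓ⁻¹) ^ k))
    calc W k n * ‖perCoef (fun x => χ x * 𝓕⁻ φ (ℓ⁻¹ • x)) n‖
        ≤ ((ℓ⁻¹) ^ k * (1 + ℓ * ‖n‖) ^ k) * ‖perCoef (fun x => χ x * 𝓕⁻ φ (ℓ⁻¹ • x)) n‖ := by
          gcongr
          exact W_le hℓ hℓ1 k n
      _ = _ := by ring

/-- **K2**: norm of the extension. -/
theorem Nn_ext_le {χ : E d → ℂ} (hχ : ContDiff ℝ ∞ χ) (hs : ∀ x, 3 ≤ ‖x‖ → χ x = 0)
    {j : ℕ} (hjk : j ≤ k) :
    ∃ C : ℝ, 0 < C ∧ ∀ ℓ : ℝ, 0 < ℓ → ℓ ≤ 1 → ∀ φ : E d → ℂ, Integrable φ →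
    Integrable (fun ξ => (1 + ‖ξ‖) ^ k * ‖φ ξ‖) →
      Nn ℓ j (per k (fun x => χ x * 𝓕⁻ φ (ℓ⁻¹ • x)))
        ≤ C * ∫ ξ : E d, (1 + ‖ξ‖) ^ j * ‖φ ξ‖ := by
  obtain ⟨C, hC, H⟩ := ext_bound hχ hs j
  refine ⟨C, hC, ?_⟩
  intro ℓ hℓ hℓ1 φ hφ hφk
  rw [Nn_per (Loc.ext hχ hs hℓ hℓ1 hφ hφk)]
  refine (H ℓ hℓ hℓ1 φ hφ ?_).2
  apply hφk.mono
  · exact (Continuous.aestronglyMeasurable (by fun_prop)).mul hφ.1.norm
  · filter_upwards with ξ
    have h1 : 1 ≤ 1 + ‖ξ‖ := by linarith [norm_nonneg ξ]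
    rw [Real.norm_of_nonneg (by positivity), Real.norm_of_nonneg (by positivity)]
    gcongr

end Vale.Agent.P139.H201
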