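import Vale.Agent.P139.H201.Ext9
import Vale.Agent.P139.H308.Pairs

/-!
# Extension from `ℝ^d` to the torus, X: the extension operator on pairs, mode matching
-/

open Set Filter Topology MeasureTheory FourierTransform
open scoped ComplexConjugate ContDiff

namespace Vale.Agent.P139.H201

open Vale.Agent.P139.A Vale.Agent.P139.A.WA Vale.Agent.P139.H203 Vale.Agent.P139.BU
open Vale.Agent.P139.N Vale.Agent.P139.H605

variable {d k j : ℕ}

/-- The extension operator on pairs (only the first component is used). -/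
noncomputable def ExP (d j : ℕ) (ℓ : ℝ) : (X1 d j × X1 d j) →L[ℝ] WA d j :=
  ((ExL c2 j ℓ).restrictScalars ℝ).comp (ContinuousLinearMap.fst ℝ (X1 d j) (X1 d j))

@[simp] theorem ExP_apply (ℓ : ℝ) (x : X1 d j × X1 d j) : ExP d j ℓ x = ExL c2 j ℓ x.1 := rfl

theorem Nn_ExP_le {ℓ : ℝ} (hℓ : 0 < ℓ) (hℓ1 : ℓ ≤ 1) (x : X1 d j × X1 d j) :
    Nn ℓ j (ExP d j ℓ x) ≤ CK2 (c2 : E d → ℂ) j * ‖x‖ := by
  rw [ExP_apply]
  refine (Nn_ExL_le cutf_c2 hℓ hℓ1 x.1).trans ?_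
  have := CK2_pos (c2 : E d → ℂ) j
  gcongr
  exact norm_fst_le x

/-- **ER** on pairs. -/
theorem ExP_Rp (hj : j ≤ k) {ℓ : ℝ} (hℓ : 0 < ℓ) (hℓ1 : ℓ ≤ 1) (v : WA d k) :
    ExP d j ℓ (L.Rp (L.c1S d) j ℓ v) = dn hj (per k c2 * v) := by
  rw [ExP_apply, L.Rp_eq]
  exact ExL_restr hj hℓ hℓ1 v fun y => L.ev_Rs (L.c1S d) hj hℓ hℓ1 v y

/-- the torus part of the mode matching, uniformly on `[0,A]` -/
theorem modeFlow_match {m : ℕ} (hm : 1 ≤ m) {w : ℝ} {Q : E d → ℂ} (hQ : IsProfile d m w Q)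
    (hj : j ≤ k) {A ε : ℝ} (hA : 0 ≤ A) (hε : 0 < ε) : ∃ ℓ₀ : ℝ, 0 < ℓ₀ ∧ ℓ₀ ≤ 1 ∧
      ∀ ℓ, 0 < ℓ → ℓ ≤ ℓ₀ → ∀ (α : ℝ) (β : Fin d → ℝ) (γ : ℝ), ∀ t ∈ Icc (0 : ℝ) A,
      ∀ x : X1 d j × X1 d j, (∀ y, BU.ev x.1 y = modeOf m w Q α (fun i => Real.exp (t / 2) * β i)
        (Real.exp t * γ) y) →
      Nn (sc ℓ t) j (dn hj (Up k (modeOf m w Q α (fun i => Real.exp (t / 2) * β i)
        (Real.exp t * γ)) (sc ℓ t)) - ExP d j (sc ℓ t) x) ≤ ε * (|α| + ∑ i, |β i| + |γ|) := by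
  obtain ⟨θ, hθ, H⟩ := modeOf_mismatch hm hQ hj
  rw [Metric.tendsto_nhdsWithin_nhds] at hθ
  obtain ⟨η, hη, Hη⟩ := hθ (ε * Real.exp (-A)) (by positivity)
  refine ⟨min (η / 2) 1, by positivity, min_le_right _ _, ?_⟩
  intro ℓ hℓ hℓ0 α β γ t ht x hx
  have hs0 : 0 < sc ℓ t := by unfold sc; positivity
  have hs1 : sc ℓ t ≤ ℓ := by
    unfold sc
    have : Real.exp (-t / 2) ≤ 1 := Real.exp_le_one_iff.2 (by linarith [ht.1])
    nlinarith
  have hℓ1 : ℓ ≤ 1 := hℓ0.trans (min_le_right _ _)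
  have hℓη : sc ℓ t < η := by
    have := hℓ0.trans (min_le_left _ _)
    linarith
  have hθ' : θ (sc ℓ t) ≤ ε * Real.exp (-A) := by
    have := Hη (x := sc ℓ t) hs0
      (by rw [Real.dist_eq, sub_zero, abs_of_pos hs0]; exact hℓη)
    rw [Real.dist_eq, sub_zero] at this
    exact ((le_abs_self _).trans_lt this).le
  rw [ExP_apply]
  refine (H (sc ℓ t) hs0 (hs1.trans hℓ1) _ _ _ x.1 hx).trans ?_
  have hsz : |α| + ∑ i, |Real.exp (t / 2) * β i| + |Real.exp t * γ|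
      ≤ Real.exp A * (|α| + ∑ i, |β i| + |γ|) := by
    have e1 : (1 : ℝ) ≤ Real.exp A := Real.one_le_exp hA
    have e2 : Real.exp (t / 2) ≤ Real.exp A :=
      Real.exp_le_exp.2 (by linarith [ht.1, ht.2])
    have e3 : Real.exp t ≤ Real.exp A := Real.exp_le_exp.2 ht.2
    rw [mul_add, mul_add, Finset.mul_sum]
    refine add_le_add (add_le_add ?_ (Finset.sum_le_sum fun i _ => ?_)) ?_
    · exact le_mul_of_one_le_left (abs_nonneg _) e1
    · rw [abs_mul, abs_of_pos (Real.exp_pos _)]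
      exact mul_le_mul_of_nonneg_right e2 (abs_nonneg _)
    · rw [abs_mul, abs_of_pos (Real.exp_pos _)]
      exact mul_le_mul_of_nonneg_right e3 (abs_nonneg _)
  have h0 : 0 ≤ |α| + ∑ i, |Real.exp (t / 2) * β i| + |Real.exp t * γ| := by positivity
  calc θ (sc ℓ t) * (|α| + ∑ i, |Real.exp (t / 2) * β i| + |Real.exp t * γ|)
      ≤ ε * Real.exp (-A) * (|α| + ∑ i, |Real.exp (t / 2) * β i| + |Real.exp t * γ|) := by
        gcongr
    _ ≤ ε * Real.exp (-A) * (Real.exp A * (|α| + ∑ i, |β i| + |γ|)) := by gcongr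
    _ = ε * (|α| + ∑ i, |β i| + |γ|) := by
        rw [← mul_assoc, mul_assoc ε, ← Real.exp_add, neg_add_cancel, Real.exp_zero, mul_one]

end Vale.Agent.P139.H201
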