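import Vale.Agent.P139.H201.Ext1

/-!
# Extension from `ℝ^d` to the torus, II: coefficient formula and column bound
-/

open Set Filter Topology MeasureTheory FourierTransform
open scoped ComplexConjugate ContDiff

namespace Vale.Agent.P139.H201

open Vale.Agent.P139.A Vale.Agent.P139.A.WA Vale.Agent.P139.H203 Vale.Agent.P139.BU
open Vale.Agent.P139.N

variable {d : ℕ}

lemma expi_neg_eq (n : Lat d) (x : E d) :
    expi (-n) (WithLp.ofLp x)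
      = ((Real.fourierChar (-inner ℝ x ((2 * Real.pi)⁻¹ • latE n)) : Circle) : ℂ) := by
  rw [Real.fourierChar_apply, expi]
  congr 1
  have h : inner ℝ x ((2 * Real.pi)⁻¹ • latE n)
      = (2 * Real.pi)⁻¹ * ∑ j, (x j) * (n j : ℝ) := by
    rw [inner_smul_right, PiLp.inner_apply]
    congr 1
    apply Finset.sum_congr rfl
    intro j _
    simp [latE, mul_comm]
  rw [h]
  have hpi : (2 * Real.pi) ≠ 0 := by positivity
  have h2 : 2 * Real.pi * -((2 * Real.pi)⁻¹ * ∑ j, (x j) * (n j : ℝ)) = -∑ j, (x j) * (n j : ℝ) := by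
    field_simp
  rw [h2]
  push_cast
  rw [mul_comm]
  congr 1
  rw [← Finset.sum_neg_distrib]
  apply Finset.sum_congr rfl
  intro j _
  simp
  ring

/-- **Coefficient formula.** -/
theorem perCoef_ext {χ φ : E d → ℂ} (hχ : Integrable χ) (hφ : Integrable φ) (ℓ : ℝ) (n : Lat d) :
    perCoef (fun x => χ x * 𝓕⁻ φ (ℓ⁻¹ • x)) n
      = ((2 * Real.pi : ℂ) ^ d)⁻¹ *
        ∫ ξ : E d, 𝓕 χ ((2 * Real.pi)⁻¹ • latE n - ℓ⁻¹ • ξ) * φ ξ := by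
  rw [perCoef]
  congr 1
  -- the two-variable function
  set G : E d → E d → ℂ := fun x ξ =>
    ((Real.fourierChar (inner ℝ ξ (ℓ⁻¹ • x) - inner ℝ x ((2 * Real.pi)⁻¹ • latE n)) : Circle) : ℂ) *
      (χ x * φ ξ) with hG
  have hGint : Integrable (Function.uncurry G) (volume.prod volume) := by
    have h1 : Integrable (fun z : E d × E d => χ z.1 * φ z.2) (volume.prod volume) :=
      hχ.mul_prod hφ
    have hc : Continuous fun z : E d × E d =>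
        ((Real.fourierChar (inner ℝ z.2 (ℓ⁻¹ • z.1)
          - inner ℝ z.1 ((2 * Real.pi)⁻¹ • latE n)) : Circle) : ℂ) := by
      apply Continuous.subtype_val
      exact Real.continuous_fourierChar.comp (by fun_prop)
    refine (integrable_norm_iff ?_).1 ?_
    · exact hc.aestronglyMeasurable.mul h1.1
    · have : (fun z : E d × E d => ‖Function.uncurry G z‖) = fun z => ‖χ z.1 * φ z.2‖ := by
        ext z
        simp only [Function.uncurry, hG]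
        rw [norm_mul, Circle.norm_coe, one_mul]
      rw [this]
      exact h1.norm
  have hswap := integral_integral_swap hGint
  have hL : ∀ x : E d, ∫ ξ, G x ξ = χ x * 𝓕⁻ φ (ℓ⁻¹ • x) * expi (-n) (WithLp.ofLp x) := by
    intro x
    rw [Real.fourierInv_eq, expi_neg_eq]
    have : ∀ ξ : E d, G x ξ = (χ x *
        ((Real.fourierChar (-inner ℝ x ((2 * Real.pi)⁻¹ • latE n)) : Circle) : ℂ)) *
        (Real.fourierChar (inner ℝ ξ (ℓ⁻¹ • x)) • φ ξ) := by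
      intro ξ
      simp only [hG, Circle.smul_def, smul_eq_mul]
      rw [sub_eq_add_neg, AddChar.map_add_eq_mul, Circle.coe_mul]
      ring
    simp_rw [this]
    rw [integral_const_mul]
    ring
  have hR : ∀ ξ : E d, ∫ x, G x ξ = 𝓕 χ ((2 * Real.pi)⁻¹ • latE n - ℓ⁻¹ • ξ) * φ ξ := by
    intro ξ
    rw [Real.fourier_eq, ← integral_mul_const]
    congr 1
    ext x
    simp only [hG, Circle.smul_def, smul_eq_mul]
    have : inner ℝ ξ (ℓ⁻¹ • x) - inner ℝ x ((2 * Real.pi)⁻¹ • latE n)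
        = -inner ℝ x ((2 * Real.pi)⁻¹ • latE n - ℓ⁻¹ • ξ) := by
      rw [inner_sub_right, inner_smul_right ξ, inner_smul_right x ξ, real_inner_comm x ξ]
      ring
    rw [this]
    ring
  simp_rw [hL, hR] at hswap
  exact hswap

/-- decay of the Fourier transform of a smooth compactly supported function -/
theorem cut_fourier_decay {χ : E d → ℂ} (hχ : ContDiff ℝ ∞ χ) (hs : ∀ x, 3 ≤ ‖x‖ → χ x = 0)
    (N : ℕ) : ∃ C : ℝ, 0 < C ∧ ∀ ζ : E d, (1 + ‖ζ‖) ^ N * ‖𝓕 χ ζ‖ ≤ C := by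
  obtain ⟨C, hC, H⟩ := fourier_decay (E := E d) (F := ℂ) N 3
  have hcs : HasCompactSupport χ := by
    apply HasCompactSupport.of_support_subset_isCompact (isCompact_closedBall (0 : E d) 3)
    intro x hx
    rw [Metric.mem_closedBall, dist_zero_right]
    by_contra hlt
    exact hx (hs x (not_le.mp hlt).le)
  have h1 : ∀ i : ℕ, ∃ K : ℝ, ∀ x : E d, ‖iteratedFDeriv ℝ i χ x‖ ≤ K := by
    intro i
    obtain ⟨K, hK⟩ := (hcs.iteratedFDeriv (𝕜 := ℝ) i).exists_bound_of_continuous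
      ((hχ.of_le (m := i) (by exact_mod_cast le_top)).continuous_iteratedFDeriv le_rfl)
    exact ⟨K, hK⟩
  choose K hK using h1
  set A : ℝ := 1 + ∑ i ∈ Finset.range (N + 1), |K i| with hA
  have hA0 : 0 < A := by
    have : 0 ≤ ∑ i ∈ Finset.range (N + 1), |K i| := Finset.sum_nonneg fun i _ => abs_nonneg _
    linarith
  refine ⟨C * A, by positivity, ?_⟩
  apply H χ A hA0.le (hχ.of_le (by exact_mod_cast le_top)) (fun x hx => hs x hx.le)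
  intro j hj x
  have hmem : j ∈ Finset.range (N + 1) := Finset.mem_range.mpr (Nat.lt_succ_of_le hj)
  have hle := Finset.single_le_sum (f := fun i => |K i|) (fun i _ => abs_nonneg _) hmem
  have a1 := (hK j x).trans (le_abs_self _)
  linarith

lemma one_add_pow_le (j : ℕ) {t : ℝ} (ht : 0 ≤ t) : (1 + t) ^ j ≤ 2 ^ j * (1 + t ^ j) := by
  have hmax : (1 + t) ≤ 2 * max 1 t := by
    have := le_max_left (1:ℝ) t
    have := le_max_right (1:ℝ) t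
    linarith
  calc (1 + t) ^ j ≤ (2 * max 1 t) ^ j := by gcongr
    _ = 2 ^ j * (max 1 t) ^ j := mul_pow _ _ _
    _ ≤ 2 ^ j * (1 + t ^ j) := by
        gcongr
        rcases le_total 1 t with h | h
        · rw [max_eq_right h]; linarith
        · rw [max_eq_left h, one_pow]
          have : 0 ≤ t ^ j := by positivity
          linarith

/-- `1 + ℓ ‖n‖ ≤ 2π (1 + ‖y‖) (1 + ‖ξ‖)` for `y = n / 2π - ξ / ℓ`. -/
lemma peetre {ℓ : ℝ} (hℓ : 0 < ℓ) (hℓ1 : ℓ ≤ 1) (n : Lat d) (ξ : E d) :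
    1 + ℓ * ‖n‖ ≤ 2 * Real.pi * (1 + ‖(2 * Real.pi)⁻¹ • latE n - ℓ⁻¹ • ξ‖) * (1 + ‖ξ‖) := by
  have hpi : 0 < 2 * Real.pi := by positivity
  have hpi1 : 1 ≤ 2 * Real.pi := by linarith [Real.two_le_pi]
  set y := (2 * Real.pi)⁻¹ • latE n - ℓ⁻¹ • ξ with hy
  have h1 : ℓ • latE n = (2 * Real.pi) • (ℓ • y + ξ) := by
    rw [hy, smul_sub, smul_smul ℓ ℓ⁻¹, mul_inv_cancel₀ hℓ.ne', one_smul, sub_add_cancel,
      smul_smul, smul_smul]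
    congr 1
    field_simp
  have h2 : ℓ * ‖latE n‖ ≤ 2 * Real.pi * (ℓ * ‖y‖ + ‖ξ‖) := by
    calc ℓ * ‖latE n‖ = ‖ℓ • latE n‖ := by rw [norm_smul, Real.norm_of_nonneg hℓ.le]
      _ = 2 * Real.pi * ‖ℓ • y + ξ‖ := by rw [h1, norm_smul, Real.norm_of_nonneg hpi.le]
      _ ≤ 2 * Real.pi * (ℓ * ‖y‖ + ‖ξ‖) := by
          gcongr
          refine (norm_add_le _ _).trans ?_
          rw [norm_smul, Real.norm_of_nonneg hℓ.le]
  have h3 : ℓ * ‖n‖ ≤ ℓ * ‖latE n‖ := by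
    gcongr
    exact norm_le_latE n
  have hy0 := norm_nonneg y
  have hξ0 := norm_nonneg ξ
  have h4 : ℓ * ‖y‖ ≤ ‖y‖ := by nlinarith
  have h5 : 2 * Real.pi * (ℓ * ‖y‖ + ‖ξ‖) ≤ 2 * Real.pi * (‖y‖ + ‖ξ‖) := by gcongr
  nlinarith [mul_nonneg hy0 hξ0, mul_nonneg hpi.le (mul_nonneg hy0 hξ0)]

/-- Column sums of a rapidly decreasing kernel. -/
theorem kernel_col (d j : ℕ) : ∃ C : ℝ, 0 < C ∧ ∀ (k : E d → ℝ) (A : ℝ), 0 ≤ A → (∀ ζ, 0 ≤ k ζ) →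
    (∀ ζ, (1 + ‖ζ‖) ^ (j + 2 * (d + 1)) * k ζ ≤ A) →
    ∀ ℓ : ℝ, 0 < ℓ → ℓ ≤ 1 → ∀ (ξ : E d) (s : Finset (Lat d)),
      ∑ n ∈ s, (1 + ℓ * ‖n‖) ^ j * k ((2 * Real.pi)⁻¹ • latE n - ℓ⁻¹ • ξ)
        ≤ C * A * (1 + ‖ξ‖) ^ j := by
  obtain ⟨C, hC, H⟩ := lat_sum d
  refine ⟨(2 * Real.pi) ^ j * C, by positivity, ?_⟩
  intro k A hA hk0 hk ℓ hℓ hℓ1 ξ s
  obtain ⟨hS, hT⟩ := H (ℓ⁻¹ • ξ)
  have hterm : ∀ n : Lat d, (1 + ℓ * ‖n‖) ^ j * k ((2 * Real.pi)⁻¹ • latE n - ℓ⁻¹ • ξ)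
      ≤ (2 * Real.pi) ^ j * A * (1 + ‖ξ‖) ^ j *
        ((1 + ‖(2 * Real.pi)⁻¹ • latE n - ℓ⁻¹ • ξ‖) ^ (2 * (d + 1)))⁻¹ := by
    intro n
    set y := (2 * Real.pi)⁻¹ • latE n - ℓ⁻¹ • ξ with hy
    have hy1 : 0 < (1 + ‖y‖) ^ (2 * (d + 1)) := by positivity
    rw [← div_eq_mul_inv, le_div_iff₀ hy1]
    have hp : (1 + ℓ * ‖n‖) ^ j ≤ (2 * Real.pi) ^ j * (1 + ‖y‖) ^ j * (1 + ‖ξ‖) ^ j := by
      rw [← mul_pow, ← mul_pow]
      have := norm_nonneg n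
      gcongr
      exact peetre hℓ hℓ1 n ξ
    calc (1 + ℓ * ‖n‖) ^ j * k y * (1 + ‖y‖) ^ (2 * (d + 1))
        ≤ ((2 * Real.pi) ^ j * (1 + ‖y‖) ^ j * (1 + ‖ξ‖) ^ j) * k y
            * (1 + ‖y‖) ^ (2 * (d + 1)) := by
          have := hk0 y
          gcongr
      _ = (2 * Real.pi) ^ j * (1 + ‖ξ‖) ^ j * ((1 + ‖y‖) ^ (j + 2 * (d + 1)) * k y) := by
          rw [pow_add]
          ring
      _ ≤ (2 * Real.pi) ^ j * (1 + ‖ξ‖) ^ j * A := by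
          gcongr
          exact hk y
      _ = (2 * Real.pi) ^ j * A * (1 + ‖ξ‖) ^ j := by ring
  calc ∑ n ∈ s, (1 + ℓ * ‖n‖) ^ j * k ((2 * Real.pi)⁻¹ • latE n - ℓ⁻¹ • ξ)
      ≤ ∑ n ∈ s, (2 * Real.pi) ^ j * A * (1 + ‖ξ‖) ^ j *
        ((1 + ‖(2 * Real.pi)⁻¹ • latE n - ℓ⁻¹ • ξ‖) ^ (2 * (d + 1)))⁻¹ :=
        Finset.sum_le_sum fun n _ => hterm n
    _ = (2 * Real.pi) ^ j * A * (1 + ‖ξ‖) ^ j *
        ∑ n ∈ s, ((1 + ‖(2 * Real.pi)⁻¹ • latE n - ℓ⁻¹ • ξ‖) ^ (2 * (d + 1)))⁻¹ := by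
        rw [Finset.mul_sum]
    _ ≤ (2 * Real.pi) ^ j * A * (1 + ‖ξ‖) ^ j * C := by
        gcongr
        exact (hS.sum_le_tsum s (fun n _ => by positivity)).trans hT
    _ = _ := by ring

/-- **Column bound** for general kernel operators from `ℝ^d` densities to the torus. -/
theorem kernel_bound (d j : ℕ) : ∃ C : ℝ, 0 < C ∧ ∀ (k : E d → ℝ) (A : ℝ), 0 ≤ A → (∀ ζ, 0 ≤ k ζ) →
    Continuous k → (∀ ζ, (1 + ‖ζ‖) ^ (j + 2 * (d + 1)) * k ζ ≤ A) →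
    ∀ ℓ : ℝ, 0 < ℓ → ℓ ≤ 1 → ∀ φ : E d → ℂ, Integrable φ →
    Integrable (fun ξ => (1 + ‖ξ‖) ^ j * ‖φ ξ‖) →
    ∀ c : Lat d → ℂ,
      (∀ n, ‖c n‖ ≤ ∫ ξ : E d, k ((2 * Real.pi)⁻¹ • latE n - ℓ⁻¹ • ξ) * ‖φ ξ‖) →
      Summable (fun n => (1 + ℓ * ‖n‖) ^ j * ‖c n‖) ∧
      ∑' n, (1 + ℓ * ‖n‖) ^ j * ‖c n‖ ≤ C * A * ∫ ξ : E d, (1 + ‖ξ‖) ^ j * ‖φ ξ‖ := by
  obtain ⟨C, hC, H⟩ := kernel_col d j
  refine ⟨C, hC, ?_⟩
  intro k A hA hk0 hkc hk ℓ hℓ hℓ1 φ hφ hφj c hc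
  have hcol := col_bound (V := E d) (ι := Lat d)
    (a := fun n ξ => (1 + ℓ * ‖n‖) ^ j * k ((2 * Real.pi)⁻¹ • latE n - ℓ⁻¹ • ξ)) (φ := φ)
    (Wt := fun ξ => C * A * (1 + ‖ξ‖) ^ j)
    (fun n ξ => mul_nonneg (by positivity) (hk0 _))
    (fun n => by
      apply Continuous.aestronglyMeasurable
      exact continuous_const.mul (hkc.comp (by fun_prop)))
    (fun ξ s => H k A hA hk0 hk ℓ hℓ hℓ1 ξ s) hφ.1
    (by
      have := hφj.const_mul (C * A)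
      refine this.congr ?_
      filter_upwards with ξ
      ring)
  obtain ⟨h1, h2, h3⟩ := hcol
  have hle : ∀ n, (1 + ℓ * ‖n‖) ^ j * ‖c n‖
      ≤ ∫ ξ, (1 + ℓ * ‖n‖) ^ j * k ((2 * Real.pi)⁻¹ • latE n - ℓ⁻¹ • ξ) * ‖φ ξ‖ := by
    intro n
    have : ∫ ξ, (1 + ℓ * ‖n‖) ^ j * k ((2 * Real.pi)⁻¹ • latE n - ℓ⁻¹ • ξ) * ‖φ ξ‖
        = (1 + ℓ * ‖n‖) ^ j * ∫ ξ, k ((2 * Real.pi)⁻¹ • latE n - ℓ⁻¹ • ξ) * ‖φ ξ‖ := by
      rw [← integral_const_mul]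
      congr 1
      ext ξ
      ring
    rw [this]
    have := norm_nonneg n
    gcongr
    exact hc n
  have hs : Summable (fun n => (1 + ℓ * ‖n‖) ^ j * ‖c n‖) :=
    Summable.of_nonneg_of_le (fun n => by positivity) hle h2
  refine ⟨hs, (hs.tsum_le_tsum hle h2).trans (h3.trans_eq ?_)⟩
  rw [← integral_const_mul]
  congr 1
  ext ξ
  ring

/-- **Extension bound** (K2): Wiener functions cut off and rescaled to the torus. -/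
theorem ext_bound {χ : E d → ℂ} (hχ : ContDiff ℝ ∞ χ) (hs : ∀ x, 3 ≤ ‖x‖ → χ x = 0) (j : ℕ) :
    ∃ C : ℝ, 0 < C ∧ ∀ ℓ : ℝ, 0 < ℓ → ℓ ≤ 1 → ∀ φ : E d → ℂ, Integrable φ →
    Integrable (fun ξ => (1 + ‖ξ‖) ^ j * ‖φ ξ‖) →
      Summable (fun n : Lat d => (1 + ℓ * ‖n‖) ^ j *
        ‖perCoef (fun x => χ x * 𝓕⁻ φ (ℓ⁻¹ • x)) n‖) ∧
      ∑' n : Lat d, (1 + ℓ * ‖n‖) ^ j * ‖perCoef (fun x => χ x * 𝓕⁻ φ (ℓ⁻¹ • x)) n‖
        ≤ C * ∫ ξ : E d, (1 + ‖ξ‖) ^ j * ‖φ ξ‖ := by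
  obtain ⟨A, hA, hdec⟩ := cut_fourier_decay hχ hs (j + 2 * (d + 1))
  obtain ⟨C, hC, H⟩ := kernel_bound d j
  have hcs : HasCompactSupport χ := by
    apply HasCompactSupport.of_support_subset_isCompact (isCompact_closedBall (0 : E d) 3)
    intro x hx
    rw [Metric.mem_closedBall, dist_zero_right]
    by_contra hlt
    exact hx (hs x (not_le.mp hlt).le)
  have hχint : Integrable χ := hχ.continuous.integrable_of_hasCompactSupport hcs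
  have hFc : Continuous (𝓕 χ) :=
    VectorFourier.fourierIntegral_continuous Real.continuous_fourierChar
      (by exact continuous_inner) hχint
  set c0 : ℝ := ‖((2 * Real.pi : ℂ) ^ d)⁻¹‖ with hc0
  refine ⟨C * ((c0 + 1) * A), by positivity, ?_⟩
  intro ℓ hℓ hℓ1 φ hφ hφj
  apply H (fun ζ => (c0 + 1) * ‖𝓕 χ ζ‖) ((c0 + 1) * A) (by positivity)
    (fun ζ => by positivity) (continuous_const.mul hFc.norm) ?_ ℓ hℓ hℓ1 φ hφ hφj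
  · intro n
    rw [perCoef_ext hχint hφ ℓ n, norm_mul]
    have h1 : ‖∫ ξ : E d, 𝓕 χ ((2 * Real.pi)⁻¹ • latE n - ℓ⁻¹ • ξ) * φ ξ‖
        ≤ ∫ ξ : E d, ‖𝓕 χ ((2 * Real.pi)⁻¹ • latE n - ℓ⁻¹ • ξ)‖ * ‖φ ξ‖ := by
      refine (norm_integral_le_integral_norm _).trans_eq ?_
      congr 1
      ext ξ
      rw [norm_mul]
    have h2 : 0 ≤ ∫ ξ : E d, ‖𝓕 χ ((2 * Real.pi)⁻¹ • latE n - ℓ⁻¹ • ξ)‖ * ‖φ ξ‖ :=
      integral_nonneg fun ξ => by positivity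
    have h3 : ∫ ξ : E d, (c0 + 1) * ‖𝓕 χ ((2 * Real.pi)⁻¹ • latE n - ℓ⁻¹ • ξ)‖ * ‖φ ξ‖
        = (c0 + 1) * ∫ ξ : E d, ‖𝓕 χ ((2 * Real.pi)⁻¹ • latE n - ℓ⁻¹ • ξ)‖ * ‖φ ξ‖ := by
      rw [← integral_const_mul]
      congr 1
      ext ξ
      ring
    rw [h3]
    have hc00 : 0 ≤ c0 := norm_nonneg _
    calc c0 * ‖∫ ξ : E d, 𝓕 χ ((2 * Real.pi)⁻¹ • latE n - ℓ⁻¹ • ξ) * φ ξ‖
        ≤ c0 * ∫ ξ : E d, ‖𝓕 χ ((2 * Real.pi)⁻¹ • latE n - ℓ⁻¹ • ξ)‖ * ‖φ ξ‖ := by gcongr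
      _ ≤ _ := by
          gcongr
          linarith
  · intro ζ
    have := hdec ζ
    calc (1 + ‖ζ‖) ^ (j + 2 * (d + 1)) * ((c0 + 1) * ‖𝓕 χ ζ‖)
        = (c0 + 1) * ((1 + ‖ζ‖) ^ (j + 2 * (d + 1)) * ‖𝓕 χ ζ‖) := by ring
      _ ≤ (c0 + 1) * A := by
          have : 0 ≤ c0 := norm_nonneg _
          gcongr

end Vale.Agent.P139.H201
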