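import Vale.Agent.P139.H201.Ext2

/-!
# Extension from `ℝ^d` to the torus, III: inversion
-/

open Set Filter Topology MeasureTheory
open scoped ComplexConjugate ContDiff

namespace Vale.Agent.P139.H201

open Vale.Agent.P139.A Vale.Agent.P139.A.WA Vale.Agent.P139.H203 Vale.Agent.P139.BU
open Vale.Agent.P139.N

variable {d : ℕ}

/-- reduction of a point of `ℝ^d` modulo `2π` into the cube `(-π, π]^d` -/
noncomputable def red (x : Fin d → ℝ) : Fin d → ℝ := fun j =>
  toIocMod Real.two_pi_pos (-Real.pi) (x j)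

/-- the value at `x` of the `2π`-periodic function equal to `G` on the cube -/
noncomputable def perF (G : E d → ℂ) (x : Fin d → ℝ) : ℂ := G (WithLp.toLp 2 (red x))

/-- representative in `(-1/2, 1/2]^d` of a point of the unit torus -/
noncomputable def repT (t : UnitAddTorus (Fin d)) : Fin d → ℝ := fun i =>
  ((AddCircle.equivIoc 1 (-(1 / 2) : ℝ) (t i)) : ℝ)

/-- The function on the unit torus. -/
noncomputable def torF (G : E d → ℂ) (t : UnitAddTorus (Fin d)) : ℂ :=
  G (WithLp.toLp 2 ((2 * Real.pi) • repT t))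

lemma repT_coe {x : Fin d → ℝ} (hx : ∀ i, x i ∈ Ioc (-(1 / 2) : ℝ) (-(1 / 2) + 1)) :
    repT (fun i => ((x i : ℝ) : UnitAddCircle)) = x := by
  ext i
  exact AddCircle.equivIoc_coe_of_mem (hx i)

lemma coe_repT (t : UnitAddTorus (Fin d)) (i : Fin d) : ((repT t i : ℝ) : UnitAddCircle) = t i :=
  AddCircle.coe_equivIoc

lemma norm_coord_le (x : E d) (i : Fin d) : |x i| ≤ ‖x‖ := by
  have : ‖x i‖ ≤ ‖x‖ := PiLp.norm_apply_le _ i
  simpa using this

lemma continuous_torF {G : E d → ℂ} (hG : Continuous G) (hs : ∀ x, 3 ≤ ‖x‖ → G x = 0) :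
    Continuous (torF G) := by
  rw [continuous_iff_continuousAt]
  intro t
  by_cases h : ∀ i, t i ≠ ((-(1 / 2) : ℝ) : UnitAddCircle)
  · -- continuity at interior points
    have h1 : ContinuousAt (repT (d := d)) t := by
      rw [continuousAt_pi]
      intro i
      have h2 : ContinuousAt (fun s : UnitAddCircle =>
          ((AddCircle.equivIoc 1 (-(1 / 2) : ℝ) s) : ℝ)) (t i) :=
        continuous_subtype_val.continuousAt.comp (AddCircle.continuousAt_equivIoc 1 _ (h i))
      have h4 : ContinuousAt (fun t' : UnitAddTorus (Fin d) => t' i) t :=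
        (continuous_apply (A := fun _ : Fin d => UnitAddCircle) i).continuousAt
      exact ContinuousAt.comp (g := fun s : UnitAddCircle =>
          ((AddCircle.equivIoc 1 (-(1 / 2) : ℝ) s) : ℝ)) h2 h4
    have h3 : ContinuousAt (fun t => WithLp.toLp 2 ((2 * Real.pi) • repT t) :
        UnitAddTorus (Fin d) → E d) t := by
      have h5 : ContinuousAt (fun t => (2 * Real.pi) • repT t) t := h1.const_smul (2 * Real.pi)
      exact (PiLp.continuous_toLp 2 (fun _ : Fin d => ℝ)).continuousAt.comp h5
    exact hG.continuousAt.comp h3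
  · -- near the boundary the function vanishes
    push Not at h
    obtain ⟨i, hi⟩ := h
    have hz : ∀ t' : UnitAddTorus (Fin d), 3 / (2 * Real.pi) < |repT t' i| → torF G t' = 0 := by
      intro t' ht'
      apply hs
      have h1 := norm_coord_le (WithLp.toLp 2 ((2 * Real.pi) • repT t') : E d) i
      have h2 : |(WithLp.toLp 2 ((2 * Real.pi) • repT t') : E d) i| = 2 * Real.pi * |repT t' i| := by
        simp [abs_mul, abs_of_pos Real.pi_pos]
      rw [h2] at h1
      rw [div_lt_iff₀ Real.two_pi_pos] at ht'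
      linarith
    -- compact set of circle points with small representative
    set Kc : Set UnitAddCircle := (fun r : ℝ => (r : UnitAddCircle)) ''
      Icc (-(3 / (2 * Real.pi))) (3 / (2 * Real.pi)) with hKc
    have hKcl : IsClosed Kc :=
      (isCompact_Icc.image (AddCircle.continuous_mk' (1:ℝ))).isClosed
    have h3pi : 3 / (2 * Real.pi) < 1 / 2 := by
      rw [div_lt_iff₀ Real.two_pi_pos]
      have := Real.pi_gt_three
      linarith
    have hnot : t i ∉ Kc := by
      rw [hi, hKc]
      rintro ⟨r, hr, hre⟩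
      have hr1 : r ∈ Ioc (-(1 / 2) : ℝ) (-(1 / 2) + 1) :=
        ⟨by linarith [hr.1], by linarith [hr.2]⟩
      have hh : ((-(1 / 2) : ℝ) : UnitAddCircle) = ((1 / 2 : ℝ) : UnitAddCircle) := by
        rw [← AddCircle.coe_add_period (1:ℝ) (-(1/2) : ℝ)]
        norm_num
      simp only [hh] at hre
      have := (AddCircle.coe_eq_coe_iff_of_mem_Ioc (p := (1:ℝ)) (a := (-(1/2) : ℝ)) hr1
        (by constructor <;> norm_num)).1 hre
      rw [this] at hr
      linarith [hr.2]
    have hopen : IsOpen {t' : UnitAddTorus (Fin d) | t' i ∉ Kc} :=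
      hKcl.isOpen_compl.preimage (continuous_apply (A := fun _ : Fin d => UnitAddCircle) i)
    have hev : torF G =ᶠ[𝓝 t] fun _ => 0 := by
      filter_upwards [hopen.mem_nhds hnot] with t' ht'
      apply hz
      by_contra hle
      push Not at hle
      apply ht'
      exact ⟨repT t' i, abs_le.1 hle, coe_repT t' i⟩
    exact continuousAt_const.congr hev.symm

lemma mFourier_coe (n : Lat d) (x : Fin d → ℝ) :
    UnitAddTorus.mFourier n (fun i => ((x i : ℝ) : UnitAddCircle)) = expi n ((2 * Real.pi) • x) := by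
  show ∏ i, fourier (n i) ((x i : ℝ) : UnitAddCircle) = _
  simp_rw [fourier_coe_apply]
  rw [← Complex.exp_sum, expi, Finset.mul_sum]
  congr 1
  apply Finset.sum_congr rfl
  intro i _
  simp
  ring

lemma mFourierCoeff_torF {G : E d → ℂ} (hs : ∀ x, 3 ≤ ‖x‖ → G x = 0) (n : Lat d) :
    UnitAddTorus.mFourierCoeff (torF G) n = perCoef G n := by
  rw [UnitAddTorus.mFourierCoeff_eq_integral _ n (fun _ => (-(1/2) : ℝ))]
  set S : Set (Fin d → ℝ) := {x | ∀ i, x i ∈ Ioc (-(1/2) : ℝ) (-(1/2) + 1)} with hS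
  have hSm : MeasurableSet S := MeasurableSet.univ_pi' fun i => measurableSet_Ioc
  set H : (Fin d → ℝ) → ℂ := fun y => G (WithLp.toLp 2 y) * expi (-n) y with hH
  have h1 : ∫ x in S, UnitAddTorus.mFourier (-n) (fun i => ((x i : ℝ) : UnitAddCircle)) •
      torF G (fun i => ((x i : ℝ) : UnitAddCircle))
      = ∫ x in S, H ((2 * Real.pi) • x) := by
    apply setIntegral_congr_fun hSm
    intro x hx
    simp only
    rw [mFourier_coe, torF, repT_coe hx, hH, smul_eq_mul, mul_comm]
  rw [h1]
  have h2 : ∫ x in S, H ((2 * Real.pi) • x) = ∫ x, H ((2 * Real.pi) • x) := by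
    apply setIntegral_eq_integral_of_forall_compl_eq_zero
    intro x hx
    have : ∃ i, x i ∉ Ioc (-(1/2) : ℝ) (-(1/2) + 1) := by
      by_contra hcon
      push Not at hcon
      exact hx hcon
    obtain ⟨i, hi⟩ := this
    rw [hH]
    simp only
    rw [hs, zero_mul]
    have h3 := norm_coord_le (WithLp.toLp 2 ((2 * Real.pi) • x) : E d) i
    have h4 : |(WithLp.toLp 2 ((2 * Real.pi) • x) : E d) i| = 2 * Real.pi * |x i| := by
      simp [abs_mul, abs_of_pos Real.pi_pos]
    rw [h4] at h3
    have h5 : 1 / 2 ≤ |x i| := by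
      by_contra hlt
      push Not at hlt
      apply hi
      rw [abs_lt] at hlt
      exact ⟨hlt.1, by linarith [hlt.2]⟩
    have := Real.pi_gt_three
    nlinarith
  rw [h2, Measure.integral_comp_smul, Module.finrank_fin_fun, perCoef]
  have h6 : ∫ y, H y = ∫ x : E d, G x * expi (-n) (WithLp.ofLp x) := by
    have := (PiLp.volume_preserving_ofLp (Fin d)).integral_comp
      (MeasurableEquiv.toLp 2 (Fin d → ℝ)).symm.measurableEmbedding H
    rw [← this]
  rw [h6, Complex.real_smul]
  congr 1
  rw [abs_of_nonneg (by positivity)]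
  push_cast
  ring

/-- **Inversion**: the Fourier series with coefficients `perCoef G` is the periodisation. -/
theorem series_perCoef {G : E d → ℂ} (hG : Continuous G) (hs : ∀ x, 3 ≤ ‖x‖ → G x = 0)
    (hsum : Summable fun n : Lat d => ‖perCoef G n‖) (x : Fin d → ℝ) :
    series (perCoef G) x = perF G x := by
  set f : C(UnitAddTorus (Fin d), ℂ) := ⟨torF G, continuous_torF hG hs⟩ with hf
  have hcoef : ∀ n, UnitAddTorus.mFourierCoeff f n = perCoef G n := fun n =>
    mFourierCoeff_torF hs n
  have hS : Summable (UnitAddTorus.mFourierCoeff f) := by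
    have : UnitAddTorus.mFourierCoeff f = perCoef G := funext hcoef
    rw [this]
    exact hsum.of_norm
  set y : Fin d → ℝ := (2 * Real.pi)⁻¹ • red x with hy
  have hymem : ∀ i, y i ∈ Ioc (-(1 / 2) : ℝ) (-(1 / 2) + 1) := by
    intro i
    have h1 := toIocMod_mem_Ioc Real.two_pi_pos (-Real.pi) (x i)
    have h2 : y i = (2 * Real.pi)⁻¹ * toIocMod Real.two_pi_pos (-Real.pi) (x i) := rfl
    rw [h2]
    have hpi := Real.pi_pos
    constructor
    · rw [lt_inv_mul_iff₀ Real.two_pi_pos]
      linarith [h1.1]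
    · rw [inv_mul_le_iff₀ Real.two_pi_pos]
      linarith [h1.2]
  have key := UnitAddTorus.hasSum_mFourier_series_apply_of_summable hS
    (fun i => ((y i : ℝ) : UnitAddCircle))
  have hval : f (fun i => ((y i : ℝ) : UnitAddCircle)) = perF G x := by
    show torF G _ = _
    rw [torF, repT_coe hymem, perF, hy, smul_smul, mul_inv_cancel₀ Real.two_pi_pos.ne', one_smul]
  rw [hval] at key
  rw [series, ← key.tsum_eq]
  apply tsum_congr
  intro n
  rw [hcoef, mFourier_coe, hy, smul_smul, mul_inv_cancel₀ Real.two_pi_pos.ne', one_smul,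
    smul_eq_mul]
  congr 1
  -- periodicity of the character
  rw [expi, expi]
  have hper : ∀ j : Fin d, ∃ z : ℤ, x j = red x j + z * (2 * Real.pi) := by
    intro j
    refine ⟨toIocDiv Real.two_pi_pos (-Real.pi) (x j), ?_⟩
    have := self_sub_toIocDiv_zsmul Real.two_pi_pos (-Real.pi) (x j)
    show x j = toIocMod Real.two_pi_pos (-Real.pi) (x j) + _
    rw [← this, zsmul_eq_mul]
    ring
  choose z hz using hper
  have hexp : Complex.I * ∑ j, (n j : ℂ) * (x j : ℂ)
      = Complex.I * ∑ j, (n j : ℂ) * (red x j : ℂ) + (∑ j, n j * z j : ℤ) * (2 * Real.pi * Complex.I) := by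
    push_cast
    rw [Finset.mul_sum, Finset.mul_sum, Finset.sum_mul, ← Finset.sum_add_distrib]
    apply Finset.sum_congr rfl
    intro j _
    rw [hz j]
    push_cast
    ring
  rw [hexp, Complex.exp_add, Complex.exp_int_mul_two_pi_mul_I, mul_one]

lemma red_eq_self {x : Fin d → ℝ} (hx : ∀ j, x j ∈ Ioc (-Real.pi) Real.pi) : red x = x := by
  ext j
  show toIocMod Real.two_pi_pos (-Real.pi) (x j) = x j
  rw [toIocMod_eq_self]
  have := hx j
  rw [show -Real.pi + 2 * Real.pi = Real.pi by ring]
  exact this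

lemma perF_eq {G : E d → ℂ} {x : E d} (hx : ‖x‖ ≤ 3) : perF G (WithLp.ofLp x) = G x := by
  rw [perF, red_eq_self]
  intro j
  have h1 := norm_coord_le x j
  have h2 := Real.pi_gt_three
  have h3 := abs_le.1 (h1.trans hx)
  exact ⟨by linarith [h3.1], by linarith [h3.2]⟩

end Vale.Agent.P139.H201
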