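import Vale.Agent.P139.H201.Ext4

/-!
# Extension from `ℝ^d` to the torus, V: extension commutes with the free flow up to `O(ℓ)` (K5)
-/

open Set Filter Topology MeasureTheory FourierTransform
open scoped ComplexConjugate ContDiff

namespace Vale.Agent.P139.H201

open Vale.Agent.P139.A Vale.Agent.P139.A.WA Vale.Agent.P139.H203 Vale.Agent.P139.BU
open Vale.Agent.P139.N

variable {d k : ℕ}

/-- free flow on densities: `v_t = i Δ v - y·∇v / 2 + c v` -/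
noncomputable def S0den (c : ℂ) (r : ℝ) (φ : E d → ℂ) (ξ : E d) : ℂ :=
  Complex.exp (c * r) * (Real.exp (d * r / 2) : ℝ) *
    Complex.exp (-(Complex.I * ((4 * Real.pi ^ 2 * ‖ξ‖ ^ 2 * (Real.exp r - 1) : ℝ) : ℂ))) *
    φ (Real.exp (r / 2) • ξ)

/-- free flow on the torus side: multiplier, scale `ℓ` at the beginning -/
noncomputable def freeT (c : ℂ) (ℓ r : ℝ) (n : Lat d) : ℂ :=
  Complex.exp (c * r) * Complex.exp (-(Complex.I * ((ℓ ^ 2 * (1 - Real.exp (-r)) * sqNorm n : ℝ) : ℂ)))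

lemma norm_exp_neg_I (t : ℝ) : ‖Complex.exp (-(Complex.I * (t : ℂ)))‖ = 1 := by
  rw [Complex.norm_exp]
  simp

lemma S0den_integrable {c : ℂ} {r : ℝ} {φ : E d → ℂ} (hφ : Integrable φ) :
    Integrable (S0den c r φ) := by
  have h1 : Integrable (fun ξ : E d => φ (Real.exp (r / 2) • ξ)) :=
    hφ.comp_smul (Real.exp_pos _).ne'
  have hc : Continuous (fun ξ : E d => Complex.exp (c * r) * (Real.exp (d * r / 2) : ℝ) *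
    Complex.exp (-(Complex.I * ((4 * Real.pi ^ 2 * ‖ξ‖ ^ 2 * (Real.exp r - 1) : ℝ) : ℂ)))) := by
    fun_prop
  refine (h1.norm.const_mul (‖Complex.exp (c * r)‖ * Real.exp (d * r / 2))).mono
    (hc.aestronglyMeasurable.mul h1.1) (Eventually.of_forall fun ξ => ?_)
  rw [S0den, norm_mul, norm_mul, norm_mul, norm_exp_neg_I, Complex.norm_real, mul_one,
    Real.norm_of_nonneg (Real.exp_pos _).le, Real.norm_of_nonneg (by positivity)]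

/-- coefficients of the extension of the free flow -/
theorem perCoef_S0 {χ φ : E d → ℂ} (hχ : Integrable χ) (hφ : Integrable φ) (c : ℂ) {ℓ : ℝ}
    (r : ℝ) (n : Lat d) :
    perCoef (fun x => χ x * 𝓕⁻ (S0den c r φ) ((ℓ * Real.exp (-r / 2))⁻¹ • x)) n
      = ((2 * Real.pi : ℂ) ^ d)⁻¹ * (Complex.exp (c * r) *
        ∫ ξ : E d, 𝓕 χ ((2 * Real.pi)⁻¹ • latE n - ℓ⁻¹ • ξ) *
          (Complex.exp (-(Complex.I * ((4 * Real.pi ^ 2 * ‖ξ‖ ^ 2 * (1 - Real.exp (-r)) : ℝ) : ℂ)))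
            * φ ξ)) := by
  rw [perCoef_ext hχ (S0den_integrable hφ)]
  congr 1
  set R : ℝ := Real.exp (r / 2) with hR
  have hR0 : 0 < R := Real.exp_pos _
  set H : E d → ℂ := fun ξ => 𝓕 χ ((2 * Real.pi)⁻¹ • latE n - ℓ⁻¹ • ξ) *
          (Complex.exp (-(Complex.I * ((4 * Real.pi ^ 2 * ‖ξ‖ ^ 2 * (1 - Real.exp (-r)) : ℝ) : ℂ)))
            * φ ξ) with hH
  have h1 : ∀ ξ : E d, 𝓕 χ ((2 * Real.pi)⁻¹ • latE n - (ℓ * Real.exp (-r / 2))⁻¹ • ξ) *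
      S0den c r φ ξ = (Complex.exp (c * r) * (Real.exp (d * r / 2) : ℝ)) * H (R • ξ) := by
    intro ξ
    have e1 : (ℓ * Real.exp (-r / 2))⁻¹ • ξ = ℓ⁻¹ • R • ξ := by
      rw [smul_smul, mul_inv, ← Real.exp_neg]
      congr 3
      ring
    have e2 : 4 * Real.pi ^ 2 * ‖R • ξ‖ ^ 2 * (1 - Real.exp (-r))
        = 4 * Real.pi ^ 2 * ‖ξ‖ ^ 2 * (Real.exp r - 1) := by
      rw [norm_smul, Real.norm_of_nonneg hR0.le, mul_pow, hR, ← Real.exp_nat_mul]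
      have e3 : Real.exp (((2 : ℕ) : ℝ) * (r / 2)) = Real.exp r := by
        congr 1
        push_cast
        ring
      rw [e3]
      have e4 : Real.exp r * Real.exp (-r) = 1 := by rw [← Real.exp_add]; simp
      calc 4 * Real.pi ^ 2 * (Real.exp r * ‖ξ‖ ^ 2) * (1 - Real.exp (-r))
          = 4 * Real.pi ^ 2 * ‖ξ‖ ^ 2 * (Real.exp r - Real.exp r * Real.exp (-r)) := by ring
        _ = _ := by rw [e4]
    rw [hH]
    simp only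
    rw [e1, e2, S0den]
    ring
  simp_rw [h1]
  rw [integral_const_mul, Measure.integral_comp_smul, abs_of_nonneg (by positivity),
    finrank_euclideanSpace_fin, Complex.real_smul]
  have e5 : (Real.exp (d * r / 2) : ℝ) * (R ^ d)⁻¹ = 1 := by
    rw [hR, ← Real.exp_nat_mul, ← Real.exp_neg, ← Real.exp_add]
    rw [show (d : ℝ) * r / 2 + -(d * (r / 2)) = 0 by ring, Real.exp_zero]
  calc Complex.exp (c * r) * (Real.exp (d * r / 2) : ℝ) * ((((R ^ d)⁻¹ : ℝ) : ℂ) * ∫ ξ, H ξ)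
      = Complex.exp (c * r) * (((Real.exp (d * r / 2) : ℝ) * (R ^ d)⁻¹ : ℝ) : ℂ) * ∫ ξ, H ξ := by
        push_cast
        ring
    _ = Complex.exp (c * r) * ∫ ξ, H ξ := by rw [e5]; simp

lemma norm_exp_I_sub_le (s t : ℝ) :
    ‖Complex.exp (-(Complex.I * (s : ℂ))) - Complex.exp (-(Complex.I * (t : ℂ)))‖ ≤ |s - t| := by
  have h1 : Complex.exp (-(Complex.I * (s : ℂ))) - Complex.exp (-(Complex.I * (t : ℂ)))
      = Complex.exp (-(Complex.I * (t : ℂ))) * (Complex.exp (Complex.I * ((t - s : ℝ) : ℂ)) - 1) := by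
    rw [mul_sub, mul_one, ← Complex.exp_add]
    congr 2
    push_cast
    ring
  rw [h1, norm_mul, norm_exp_neg_I, one_mul]
  have := Real.norm_exp_I_mul_ofReal_sub_one_le (x := t - s)
  rw [Real.norm_eq_abs] at this
  rw [abs_sub_comm]
  exact this

/-- the difference of the phases -/
lemma phase_diff {ℓ r : ℝ} (hℓ : 0 < ℓ) (hℓ1 : ℓ ≤ 1) (hr : 0 ≤ r) (n : Lat d) (ξ : E d) :
    |4 * Real.pi ^ 2 * ‖ξ‖ ^ 2 * (1 - Real.exp (-r)) - ℓ ^ 2 * (1 - Real.exp (-r)) * sqNorm n|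
      ≤ 8 * Real.pi ^ 2 * ℓ * (1 + ‖(2 * Real.pi)⁻¹ • latE n - ℓ⁻¹ • ξ‖) ^ 2 * (1 + ‖ξ‖) := by
  set y := (2 * Real.pi)⁻¹ • latE n - ℓ⁻¹ • ξ with hy
  have hpi : 0 < 2 * Real.pi := by positivity
  have hE0 : 0 ≤ 1 - Real.exp (-r) := by
    have : Real.exp (-r) ≤ 1 := Real.exp_le_one_iff.2 (by linarith)
    linarith
  have hE1 : 1 - Real.exp (-r) ≤ 1 := by
    have := Real.exp_pos (-r)
    linarith
  have h1 : ℓ • latE n = (2 * Real.pi) • (ℓ • y + ξ) := by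
    rw [hy, smul_sub, smul_smul ℓ ℓ⁻¹, mul_inv_cancel₀ hℓ.ne', one_smul, sub_add_cancel,
      smul_smul, smul_smul]
    congr 1
    field_simp
  have h2 : ℓ ^ 2 * sqNorm n = 4 * Real.pi ^ 2 * ‖ℓ • y + ξ‖ ^ 2 := by
    rw [← norm_latE_sq, ← mul_pow]
    have : ℓ * ‖latE n‖ = 2 * Real.pi * ‖ℓ • y + ξ‖ := by
      have e := congrArg norm h1
      rwa [norm_smul, norm_smul, Real.norm_of_nonneg hℓ.le, Real.norm_of_nonneg hpi.le] at e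
    rw [this]
    ring
  have h3 : |‖ξ‖ ^ 2 - ‖ℓ • y + ξ‖ ^ 2| ≤ 2 * ℓ * (1 + ‖y‖) ^ 2 * (1 + ‖ξ‖) := by
    have e1 : ‖ℓ • y + ξ‖ ≤ ℓ * ‖y‖ + ‖ξ‖ := by
      refine (norm_add_le _ _).trans ?_
      rw [norm_smul, Real.norm_of_nonneg hℓ.le]
    have e2 : ‖ξ‖ ≤ ℓ * ‖y‖ + ‖ℓ • y + ξ‖ := by
      calc ‖ξ‖ = ‖(ℓ • y + ξ) - ℓ • y‖ := by congr 1; abel
        _ ≤ ‖ℓ • y + ξ‖ + ‖ℓ • y‖ := norm_sub_le _ _
        _ = _ := by rw [norm_smul, Real.norm_of_nonneg hℓ.le]; ring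
    have e3 : |‖ξ‖ - ‖ℓ • y + ξ‖| ≤ ℓ * ‖y‖ := by
      rw [abs_le]
      constructor <;> linarith
    have e4 : ‖ξ‖ ^ 2 - ‖ℓ • y + ξ‖ ^ 2 = (‖ξ‖ - ‖ℓ • y + ξ‖) * (‖ξ‖ + ‖ℓ • y + ξ‖) := by ring
    have hy0 := norm_nonneg y
    have hξ0 := norm_nonneg ξ
    have e5 : |‖ξ‖ + ‖ℓ • y + ξ‖| ≤ ‖y‖ + 2 * ‖ξ‖ := by
      rw [abs_of_nonneg (by positivity)]
      have : ℓ * ‖y‖ ≤ 1 * ‖y‖ := mul_le_mul_of_nonneg_right hℓ1 hy0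
      linarith
    rw [e4, abs_mul]
    calc |‖ξ‖ - ‖ℓ • y + ξ‖| * |‖ξ‖ + ‖ℓ • y + ξ‖| ≤ (ℓ * ‖y‖) * (‖y‖ + 2 * ‖ξ‖) :=
          mul_le_mul e3 e5 (abs_nonneg _) (by positivity)
      _ = ℓ * (‖y‖ * (‖y‖ + 2 * ‖ξ‖)) := by ring
      _ ≤ ℓ * (2 * (1 + ‖y‖) ^ 2 * (1 + ‖ξ‖)) := by
          apply mul_le_mul_of_nonneg_left _ hℓ.le
          nlinarith [mul_nonneg hy0 hξ0, mul_nonneg (mul_nonneg hy0 hy0) hξ0]
      _ = _ := by ring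
  have h4 : 4 * Real.pi ^ 2 * ‖ξ‖ ^ 2 * (1 - Real.exp (-r)) - ℓ ^ 2 * (1 - Real.exp (-r)) * sqNorm n
      = 4 * Real.pi ^ 2 * (1 - Real.exp (-r)) * (‖ξ‖ ^ 2 - ‖ℓ • y + ξ‖ ^ 2) := by
    have : ℓ ^ 2 * (1 - Real.exp (-r)) * sqNorm n
        = (1 - Real.exp (-r)) * (4 * Real.pi ^ 2 * ‖ℓ • y + ξ‖ ^ 2) := by rw [← h2]; ring
    rw [this]
    ring
  rw [h4, abs_mul, abs_of_nonneg (by positivity : 0 ≤ 4 * Real.pi ^ 2 * (1 - Real.exp (-r)))]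
  calc 4 * Real.pi ^ 2 * (1 - Real.exp (-r)) * |‖ξ‖ ^ 2 - ‖ℓ • y + ξ‖ ^ 2|
      ≤ 4 * Real.pi ^ 2 * 1 * (2 * ℓ * (1 + ‖y‖) ^ 2 * (1 + ‖ξ‖)) := by gcongr
    _ = _ := by ring

/-- **K5** (density level). -/
theorem K5_density {χ : E d → ℂ} (hχ : ContDiff ℝ ∞ χ) (hs : ∀ x, 3 ≤ ‖x‖ → χ x = 0) (j : ℕ) :
    ∃ C : ℝ, 0 < C ∧ ∀ c : ℂ, c.re ≤ 0 → ∀ ℓ r : ℝ, 0 < ℓ → ℓ ≤ 1 → 0 ≤ r → ∀ φ : E d → ℂ,
    Integrable φ → Integrable (fun ξ => (1 + ‖ξ‖) ^ (j + 1) * ‖φ ξ‖) →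
      Summable (fun n : Lat d => (1 + ℓ * ‖n‖) ^ j *
        ‖perCoef (fun x => χ x * 𝓕⁻ (S0den c r φ) ((ℓ * Real.exp (-r / 2))⁻¹ • x)) n
          - freeT c ℓ r n * perCoef (fun x => χ x * 𝓕⁻ φ (ℓ⁻¹ • x)) n‖) ∧
      ∑' n : Lat d, (1 + ℓ * ‖n‖) ^ j *
        ‖perCoef (fun x => χ x * 𝓕⁻ (S0den c r φ) ((ℓ * Real.exp (-r / 2))⁻¹ • x)) n
          - freeT c ℓ r n * perCoef (fun x => χ x * 𝓕⁻ φ (ℓ⁻¹ • x)) n‖
        ≤ C * ℓ * ∫ ξ : E d, (1 + ‖ξ‖) ^ (j + 1) * ‖φ ξ‖ := by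
  obtain ⟨A, hA, hdec⟩ := cut_fourier_decay hχ hs (2 + (j + 2 * (d + 1)))
  obtain ⟨C, hC, H⟩ := kernel_bound d j
  have hcs : HasCompactSupport χ := by
    apply HasCompactSupport.of_support_subset_isCompact (isCompact_closedBall (0 : E d) 3)
    intro x hx
    rw [Metric.mem_closedBall, dist_zero_right]
    by_contra hlt
    exact hx (hs x (not_le.mp hlt).le)
  have hχint : Integrable χ := hχ.continuous.integrable_of_hasCompactSupport hcs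
  have hFc : Continuous (𝓕 χ) :=
    VectorFourier.fourierIntegral_continuous Real.continuous_fourierChar
      (by exact continuous_inner) hχint
  set c0 : ℝ := ‖((2 * Real.pi : ℂ) ^ d)⁻¹‖ with hc0
  have hc00 : 0 ≤ c0 := norm_nonneg _
  refine ⟨C * ((c0 + 1) * (8 * Real.pi ^ 2) * A), by positivity, ?_⟩
  intro c hcre ℓ r hℓ hℓ1 hr φ hφ hφj
  set φ1 : E d → ℂ := fun ξ => ((1 + ‖ξ‖ : ℝ) : ℂ) * φ ξ with hφ1
  have hφ1n : ∀ ξ, ‖φ1 ξ‖ = (1 + ‖ξ‖) * ‖φ ξ‖ := by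
    intro ξ
    rw [hφ1]
    simp only
    rw [norm_mul, Complex.norm_real, Real.norm_of_nonneg (by positivity)]
  have hmeas1 : AEStronglyMeasurable φ1 :=
    (by fun_prop : Continuous fun ξ : E d => ((1 + ‖ξ‖ : ℝ) : ℂ)).aestronglyMeasurable.mul hφ.1
  have hφ1j : Integrable (fun ξ => (1 + ‖ξ‖) ^ j * ‖φ1 ξ‖) := by
    refine hφj.congr (Eventually.of_forall fun ξ => ?_)
    simp only
    rw [hφ1n]
    ring
  have hφ1i : Integrable φ1 := by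
    refine hφ1j.mono hmeas1 (Eventually.of_forall fun ξ => ?_)
    rw [Real.norm_of_nonneg (by positivity)]
    have : (1:ℝ) ≤ (1 + ‖ξ‖) ^ j := one_le_pow₀ (by linarith [norm_nonneg ξ])
    nlinarith [norm_nonneg (φ1 ξ)]
  have hint : ∫ ξ : E d, (1 + ‖ξ‖) ^ j * ‖φ1 ξ‖ = ∫ ξ : E d, (1 + ‖ξ‖) ^ (j + 1) * ‖φ ξ‖ := by
    congr 1
    ext ξ
    rw [hφ1n]
    ring
  have key := H (fun ζ => ((c0 + 1) * (8 * Real.pi ^ 2) * ℓ) * ((1 + ‖ζ‖) ^ 2 * ‖𝓕 χ ζ‖))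
    ((c0 + 1) * (8 * Real.pi ^ 2) * ℓ * A) (by positivity)
    (fun ζ => by positivity)
    (continuous_const.mul ((by fun_prop : Continuous fun ζ : E d => (1 + ‖ζ‖) ^ 2).mul hFc.norm))
    (by
      intro ζ
      have := hdec ζ
      rw [pow_add] at this
      calc (1 + ‖ζ‖) ^ (j + 2 * (d + 1)) *
            (((c0 + 1) * (8 * Real.pi ^ 2) * ℓ) * ((1 + ‖ζ‖) ^ 2 * ‖𝓕 χ ζ‖))
          = ((c0 + 1) * (8 * Real.pi ^ 2) * ℓ) *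
            ((1 + ‖ζ‖) ^ 2 * (1 + ‖ζ‖) ^ (j + 2 * (d + 1)) * ‖𝓕 χ ζ‖) := by ring
        _ ≤ ((c0 + 1) * (8 * Real.pi ^ 2) * ℓ) * A := by gcongr)
    ℓ hℓ hℓ1 φ1 hφ1i hφ1j
    (fun n => perCoef (fun x => χ x * 𝓕⁻ (S0den c r φ) ((ℓ * Real.exp (-r / 2))⁻¹ • x)) n
          - freeT c ℓ r n * perCoef (fun x => χ x * 𝓕⁻ φ (ℓ⁻¹ • x)) n) ?_
  · obtain ⟨k1, k2⟩ := key
    refine ⟨k1, k2.trans_eq ?_⟩
    rw [hint]
    ring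
  · intro n
    rw [perCoef_S0 hχint hφ c r n, perCoef_ext hχint hφ ℓ n, freeT]
    have hker : Continuous (fun ξ : E d => 𝓕 χ ((2 * Real.pi)⁻¹ • latE n - ℓ⁻¹ • ξ)) :=
      hFc.comp (by fun_prop)
    obtain ⟨B, hB⟩ : ∃ B : ℝ, ∀ ζ : E d, ‖𝓕 χ ζ‖ ≤ B := by
      refine ⟨A, fun ζ => ?_⟩
      have h1 : (1:ℝ) ≤ (1 + ‖ζ‖) ^ (2 + (j + 2 * (d + 1))) :=
        one_le_pow₀ (by linarith [norm_nonneg ζ])
      have := hdec ζ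
      nlinarith [norm_nonneg (𝓕 χ ζ)]
    have hi1 : Integrable (fun ξ : E d => 𝓕 χ ((2 * Real.pi)⁻¹ • latE n - ℓ⁻¹ • ξ) * φ ξ) := by
      refine (hφ.norm.const_mul B).mono (hker.aestronglyMeasurable.mul hφ.1)
        (Eventually.of_forall fun ξ => ?_)
      rw [norm_mul]
      refine le_trans ?_ (le_abs_self _)
      gcongr
      exact hB _
    have hph : Continuous (fun ξ : E d => Complex.exp
        (-(Complex.I * ((4 * Real.pi ^ 2 * ‖ξ‖ ^ 2 * (1 - Real.exp (-r)) : ℝ) : ℂ)))) := by fun_prop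
    have hi2 : Integrable (fun ξ : E d => 𝓕 χ ((2 * Real.pi)⁻¹ • latE n - ℓ⁻¹ • ξ) *
        (Complex.exp (-(Complex.I * ((4 * Real.pi ^ 2 * ‖ξ‖ ^ 2 * (1 - Real.exp (-r)) : ℝ) : ℂ)))
          * φ ξ)) := by
      refine hi1.norm.mono (hker.aestronglyMeasurable.mul (hph.aestronglyMeasurable.mul hφ.1))
        (Eventually.of_forall fun ξ => ?_)
      rw [norm_mul, norm_mul, norm_exp_neg_I, one_mul, norm_norm, norm_mul]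
    set P : ℂ := Complex.exp (-(Complex.I * ((ℓ ^ 2 * (1 - Real.exp (-r)) * sqNorm n : ℝ) : ℂ)))
      with hP
    have hdiff : ((2 * Real.pi : ℂ) ^ d)⁻¹ * (Complex.exp (c * r) *
        ∫ ξ : E d, 𝓕 χ ((2 * Real.pi)⁻¹ • latE n - ℓ⁻¹ • ξ) *
          (Complex.exp (-(Complex.I * ((4 * Real.pi ^ 2 * ‖ξ‖ ^ 2 * (1 - Real.exp (-r)) : ℝ) : ℂ)))
            * φ ξ)) - Complex.exp (c * r) * P * (((2 * Real.pi : ℂ) ^ d)⁻¹ *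
          ∫ ξ : E d, 𝓕 χ ((2 * Real.pi)⁻¹ • latE n - ℓ⁻¹ • ξ) * φ ξ)
        = ((2 * Real.pi : ℂ) ^ d)⁻¹ * Complex.exp (c * r) *
          ∫ ξ : E d, 𝓕 χ ((2 * Real.pi)⁻¹ • latE n - ℓ⁻¹ • ξ) *
          ((Complex.exp (-(Complex.I * ((4 * Real.pi ^ 2 * ‖ξ‖ ^ 2 * (1 - Real.exp (-r)) : ℝ) : ℂ)))
            - P) * φ ξ) := by
      have e1 : ∫ ξ : E d, 𝓕 χ ((2 * Real.pi)⁻¹ • latE n - ℓ⁻¹ • ξ) *
          ((Complex.exp (-(Complex.I * ((4 * Real.pi ^ 2 * ‖ξ‖ ^ 2 * (1 - Real.exp (-r)) : ℝ) : ℂ)))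
            - P) * φ ξ)
          = (∫ ξ : E d, 𝓕 χ ((2 * Real.pi)⁻¹ • latE n - ℓ⁻¹ • ξ) *
          (Complex.exp (-(Complex.I * ((4 * Real.pi ^ 2 * ‖ξ‖ ^ 2 * (1 - Real.exp (-r)) : ℝ) : ℂ)))
            * φ ξ)) - ∫ ξ : E d, P * (𝓕 χ ((2 * Real.pi)⁻¹ • latE n - ℓ⁻¹ • ξ) * φ ξ) := by
        rw [← integral_sub hi2 (hi1.const_mul P)]
        congr 1
        ext ξ
        ring
      rw [e1, integral_const_mul]
      ring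
    rw [hdiff, norm_mul, norm_mul]
    have hexp : ‖Complex.exp (c * r)‖ ≤ 1 := by
      rw [Complex.norm_exp]
      apply Real.exp_le_one_iff.2
      simp only [Complex.mul_re, Complex.ofReal_re, Complex.ofReal_im, mul_zero, sub_zero]
      exact mul_nonpos_of_nonpos_of_nonneg hcre hr
    have hbound : ‖∫ ξ : E d, 𝓕 χ ((2 * Real.pi)⁻¹ • latE n - ℓ⁻¹ • ξ) *
          ((Complex.exp (-(Complex.I * ((4 * Real.pi ^ 2 * ‖ξ‖ ^ 2 * (1 - Real.exp (-r)) : ℝ) : ℂ)))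
            - P) * φ ξ)‖
        ≤ ∫ ξ : E d, (8 * Real.pi ^ 2 * ℓ) * ((1 + ‖(2 * Real.pi)⁻¹ • latE n - ℓ⁻¹ • ξ‖) ^ 2 *
          ‖𝓕 χ ((2 * Real.pi)⁻¹ • latE n - ℓ⁻¹ • ξ)‖) * ‖φ1 ξ‖ := by
      refine norm_integral_le_of_norm_le ?_ (Eventually.of_forall fun ξ => ?_)
      · -- integrability of the majorant
        have hkc : Continuous fun ξ : E d => (8 * Real.pi ^ 2 * ℓ) *
            ((1 + ‖(2 * Real.pi)⁻¹ • latE n - ℓ⁻¹ • ξ‖) ^ 2 *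
          ‖𝓕 χ ((2 * Real.pi)⁻¹ • latE n - ℓ⁻¹ • ξ)‖) := by
          exact continuous_const.mul ((by fun_prop : Continuous fun ξ : E d =>
            (1 + ‖(2 * Real.pi)⁻¹ • latE n - ℓ⁻¹ • ξ‖) ^ 2).mul hker.norm)
        refine (hφ1i.norm.const_mul (8 * Real.pi ^ 2 * ℓ * A)).mono
          (hkc.aestronglyMeasurable.mul hφ1i.1.norm) (Eventually.of_forall fun ξ => ?_)
        rw [Real.norm_of_nonneg (by positivity)]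
        refine le_trans ?_ (le_abs_self _)
        have h1 : (1 + ‖(2 * Real.pi)⁻¹ • latE n - ℓ⁻¹ • ξ‖) ^ 2 *
          ‖𝓕 χ ((2 * Real.pi)⁻¹ • latE n - ℓ⁻¹ • ξ)‖ ≤ A := by
          set ζ := (2 * Real.pi)⁻¹ • latE n - ℓ⁻¹ • ξ
          have h2 := hdec ζ
          have h3 : (1 + ‖ζ‖) ^ 2 ≤ (1 + ‖ζ‖) ^ (2 + (j + 2 * (d + 1))) :=
            pow_le_pow_right₀ (by linarith [norm_nonneg ζ]) (by omega)
          calc (1 + ‖ζ‖) ^ 2 * ‖𝓕 χ ζ‖ ≤ (1 + ‖ζ‖) ^ (2 + (j + 2 * (d + 1))) * ‖𝓕 χ ζ‖ := by gcongr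
            _ ≤ A := h2
        gcongr
      · rw [norm_mul, norm_mul, hφ1n]
        have h1 := (norm_exp_I_sub_le (4 * Real.pi ^ 2 * ‖ξ‖ ^ 2 * (1 - Real.exp (-r)))
          (ℓ ^ 2 * (1 - Real.exp (-r)) * sqNorm n)).trans (phase_diff hℓ hℓ1 hr n ξ)
        calc ‖𝓕 χ ((2 * Real.pi)⁻¹ • latE n - ℓ⁻¹ • ξ)‖ *
              (‖Complex.exp (-(Complex.I * ((4 * Real.pi ^ 2 * ‖ξ‖ ^ 2 *
                (1 - Real.exp (-r)) : ℝ) : ℂ))) - P‖ * ‖φ ξ‖)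
            ≤ ‖𝓕 χ ((2 * Real.pi)⁻¹ • latE n - ℓ⁻¹ • ξ)‖ *
              ((8 * Real.pi ^ 2 * ℓ * (1 + ‖(2 * Real.pi)⁻¹ • latE n - ℓ⁻¹ • ξ‖) ^ 2 *
                (1 + ‖ξ‖)) * ‖φ ξ‖) := by gcongr
          _ = _ := by ring
    have hnn : 0 ≤ ∫ ξ : E d, (8 * Real.pi ^ 2 * ℓ) *
        ((1 + ‖(2 * Real.pi)⁻¹ • latE n - ℓ⁻¹ • ξ‖) ^ 2 *
          ‖𝓕 χ ((2 * Real.pi)⁻¹ • latE n - ℓ⁻¹ • ξ)‖) * ‖φ1 ξ‖ :=
      integral_nonneg fun ξ => by positivity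
    calc c0 * ‖Complex.exp (c * r)‖ * ‖∫ ξ : E d, 𝓕 χ ((2 * Real.pi)⁻¹ • latE n - ℓ⁻¹ • ξ) *
          ((Complex.exp (-(Complex.I * ((4 * Real.pi ^ 2 * ‖ξ‖ ^ 2 * (1 - Real.exp (-r)) : ℝ) : ℂ)))
            - P) * φ ξ)‖
        ≤ (c0 + 1) * 1 * ∫ ξ : E d, (8 * Real.pi ^ 2 * ℓ) *
          ((1 + ‖(2 * Real.pi)⁻¹ • latE n - ℓ⁻¹ • ξ‖) ^ 2 *
          ‖𝓕 χ ((2 * Real.pi)⁻¹ • latE n - ℓ⁻¹ • ξ)‖) * ‖φ1 ξ‖ := by
          gcongr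
          linarith
      _ = _ := by
          rw [mul_one, ← integral_const_mul]
          congr 1
          ext ξ
          ring

end Vale.Agent.P139.H201
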