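import Vale.Agent.P139.H201.Ext6
import Vale.Agent.P139.H579.Cut
import Vale.Agent.P139.H579.Wop
import Vale.Agent.P139.H730.Modes

/-!
# Extension from `ℝ^d` to the torus, VII: the extension operator and the exact identities
-/

open Set Filter Topology MeasureTheory FourierTransform
open scoped ComplexConjugate ContDiff

namespace Vale.Agent.P139.H201

open Vale.Agent.P139.A Vale.Agent.P139.A.WA Vale.Agent.P139.H203 Vale.Agent.P139.BU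
open Vale.Agent.P139.N

variable {d k j : ℕ}

/-! ### Localised functions -/

/-- smooth functions with support in the ball of radius `3` -/
theorem Loc.smooth {G : E d → ℂ} (hG : ContDiff ℝ ∞ G) (hs : ∀ x, 3 ≤ ‖x‖ → G x = 0) (k : ℕ) :
    Loc k G := by
  apply Loc.of_summable hG.continuous hs
  obtain ⟨C, hC, H⟩ := lat_sum d
  have hS := (H 0).1
  simp only [sub_zero] at hS
  obtain ⟨D, hD, hdec⟩ := cut_fourier_decay hG hs (k + 2 * (d + 1))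
  have hco : ∀ n : Lat d, perCoef G n
      = ((2 * Real.pi : ℂ) ^ d)⁻¹ * 𝓕 G ((2 * Real.pi)⁻¹ • latE n) := by
    intro n
    rw [perCoef, Real.fourier_eq]
    congr 2
    ext x
    rw [expi_neg_eq, Circle.smul_def, smul_eq_mul, mul_comm]
  have hpi : 1 ≤ 2 * Real.pi := by linarith [Real.two_le_pi]
  have hpi0 : 0 < 2 * Real.pi := by positivity
  have hW : ∀ n : Lat d, W k n ≤ (2 * Real.pi) ^ k * (1 + ‖(2 * Real.pi)⁻¹ • latE n‖) ^ k := by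
    intro n
    rw [W, ← mul_pow]
    have h1 := norm_le_latE n
    have h2 : 2 * Real.pi * ‖(2 * Real.pi)⁻¹ • latE n‖ = ‖latE n‖ := by
      rw [norm_smul, norm_inv, Real.norm_of_nonneg hpi0.le, ← mul_assoc,
        mul_inv_cancel₀ hpi0.ne', one_mul]
    gcongr
    rw [mul_add, h2]
    linarith
  refine Summable.of_nonneg_of_le (fun n => mul_nonneg (W_pos n).le (norm_nonneg _)) (fun n => ?_)
    (hS.mul_left ((2 * Real.pi) ^ k * ‖((2 * Real.pi : ℂ) ^ d)⁻¹‖ * D))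
  set y := (2 * Real.pi)⁻¹ • latE n with hy
  have hb := hdec y
  have hy0 : 0 < 1 + ‖y‖ := by positivity
  rw [hco, norm_mul]
  have h3 : (1 + ‖y‖) ^ k * ‖𝓕 G y‖ ≤ D * ((1 + ‖y‖) ^ (2 * (d + 1)))⁻¹ := by
    rw [← div_eq_mul_inv, le_div_iff₀ (by positivity)]
    calc (1 + ‖y‖) ^ k * ‖𝓕 G y‖ * (1 + ‖y‖) ^ (2 * (d + 1))
        = (1 + ‖y‖) ^ (k + 2 * (d + 1)) * ‖𝓕 G y‖ := by rw [pow_add]; ring
      _ ≤ D := hb
  calc W k n * (‖((2 * Real.pi : ℂ) ^ d)⁻¹‖ * ‖𝓕 G y‖)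
      ≤ ((2 * Real.pi) ^ k * (1 + ‖y‖) ^ k) * (‖((2 * Real.pi : ℂ) ^ d)⁻¹‖ * ‖𝓕 G y‖) := by
        gcongr
        exact hW n
    _ = (2 * Real.pi) ^ k * ‖((2 * Real.pi : ℂ) ^ d)⁻¹‖ * ((1 + ‖y‖) ^ k * ‖𝓕 G y‖) := by ring
    _ ≤ (2 * Real.pi) ^ k * ‖((2 * Real.pi : ℂ) ^ d)⁻¹‖ *
        (D * ((1 + ‖y‖) ^ (2 * (d + 1)))⁻¹) := by gcongr
    _ = _ := by ring

lemma expi_red (n : Lat d) (x : Fin d → ℝ) : expi n (red x) = expi n x := by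
  have h1 : ∀ i, ∃ z : ℤ, red x i = x i - z * (2 * Real.pi) := by
    intro i
    refine ⟨toIocDiv Real.two_pi_pos (-Real.pi) (x i), ?_⟩
    rw [red, ← zsmul_eq_mul, self_sub_toIocDiv_zsmul]
  choose z hz using h1
  rw [expi, expi]
  have h2 : Complex.I * ∑ i, (n i : ℂ) * ((red x i : ℝ) : ℂ)
      = Complex.I * (∑ i, (n i : ℂ) * (x i : ℂ))
        + ((-∑ i, n i * z i : ℤ) : ℂ) * (2 * Real.pi * Complex.I) := by
    push_cast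
    rw [neg_mul, Finset.sum_mul, ← sub_eq_add_neg, Finset.mul_sum, Finset.mul_sum,
      ← Finset.sum_sub_distrib]
    apply Finset.sum_congr rfl
    intro i _
    rw [hz i]
    push_cast
    ring
  rw [h2, Complex.exp_add, Complex.exp_int_mul_two_pi_mul_I, mul_one]

/-- the values are periodic -/
lemma ev_red (v : WA d k) (x : Fin d → ℝ) : A.WA.ev v (red x) = A.WA.ev v x := by
  rw [A.WA.ev, A.WA.ev, series, series]
  apply tsum_congr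
  intro n
  rw [expi_red]

lemma ev_dn (h : j ≤ k) (v : WA d k) (x : Fin d → ℝ) : A.WA.ev (dn h v) x = A.WA.ev v x := by
  rw [A.WA.ev, A.WA.ev, series, series]
  apply tsum_congr
  intro n
  rw [coef_dn]

/-- a localised function multiplied by an element of the algebra -/
lemma ev_per_mul {G : E d → ℂ} (hG : Loc k G) (v : WA d k) (x : Fin d → ℝ) :
    A.WA.ev (per k G * v) x
      = perF (fun y => G y * A.WA.ev v (WithLp.ofLp y)) x := by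
  rw [ev_mul, hG.ev_per, perF, perF]
  congr 1
  exact (ev_red v x).symm

/-! ### The extension operator -/

lemma XK.density (f : X1 d j) : Integrable (f : E d → ℂ) ∧
    Integrable (fun ξ => (1 + ‖ξ‖) ^ j * ‖f ξ‖) ∧
    ∫ ξ, (1 + ‖ξ‖) ^ j * ‖f ξ‖ ≤ 2 ^ j * ‖f‖ := by
  have h1 := XK.integrable zero_le_one f
  have h2 : Integrable (fun ξ : E d => (1 + ‖ξ‖ ^ j) * ‖f ξ‖) := by
    have := XK.integrable_wt zero_le_one f
    simpa only [wt, one_mul] using this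
  obtain ⟨h3, h4⟩ := weight_compare h2 h1.1
  refine ⟨h1, h3, h4.trans (le_of_eq ?_)⟩
  rw [XK.norm_eq zero_le_one]
  simp only [wt, one_mul]

/-- Admissible cut-off. -/
def Cutf (χ : E d → ℂ) : Prop := ContDiff ℝ ∞ χ ∧ ∀ x, 3 ≤ ‖x‖ → χ x = 0

lemma Loc_ext {χ : E d → ℂ} (hχ : Cutf χ) {ℓ : ℝ} (hℓ : 0 < ℓ) (hℓ1 : ℓ ≤ 1) (f : X1 d j) :
    Loc j (fun x => χ x * BU.ev f (ℓ⁻¹ • x)) :=
  Loc.ext hχ.1 hχ.2 hℓ hℓ1 (XK.density f).1 (XK.density f).2.1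

/-- the constant in K2 -/
theorem exists_CK2 (χ : E d → ℂ) (j : ℕ) : ∃ C : ℝ, 0 < C ∧ (Cutf χ → ∀ ℓ : ℝ, 0 < ℓ → ℓ ≤ 1 →
    ∀ f : X1 d j, Nn ℓ j (per j (fun x => χ x * BU.ev f (ℓ⁻¹ • x))) ≤ C * ‖f‖) := by
  by_cases hχ : Cutf χ
  · obtain ⟨C, hC, H⟩ := Nn_ext_le (k := j) hχ.1 hχ.2 le_rfl
    refine ⟨C * 2 ^ j, by positivity, fun _ ℓ hℓ hℓ1 f => ?_⟩
    obtain ⟨h1, h2, h3⟩ := XK.density f
    refine (H ℓ hℓ hℓ1 _ h1 h2).trans ?_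
    rw [mul_assoc]
    gcongr
  · exact ⟨1, one_pos, fun h => absurd h hχ⟩

/-- the constant in K2 -/
noncomputable def CK2 (χ : E d → ℂ) (j : ℕ) : ℝ := (exists_CK2 χ j).choose

lemma CK2_pos (χ : E d → ℂ) (j : ℕ) : 0 < CK2 χ j := (exists_CK2 χ j).choose_spec.1

lemma CK2_le {χ : E d → ℂ} (hχ : Cutf χ) {ℓ : ℝ} (hℓ : 0 < ℓ) (hℓ1 : ℓ ≤ 1) (f : X1 d j) :
    Nn ℓ j (per j (fun x => χ x * BU.ev f (ℓ⁻¹ • x))) ≤ CK2 χ j * ‖f‖ :=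
  (exists_CK2 χ j).choose_spec.2 hχ ℓ hℓ hℓ1 f

lemma ext_add {χ : E d → ℂ} (hχ : Cutf χ) {ℓ : ℝ} (hℓ : 0 < ℓ) (hℓ1 : ℓ ≤ 1) (f g : X1 d j) :
    per j (fun x => χ x * BU.ev (f + g) (ℓ⁻¹ • x)) = per j (fun x => χ x * BU.ev f (ℓ⁻¹ • x))
      + per j (fun x => χ x * BU.ev g (ℓ⁻¹ • x)) := by
  rw [((Loc_ext hχ hℓ hℓ1 f).add (Loc_ext hχ hℓ hℓ1 g)).2]
  congr 1
  ext x
  rw [BU.ev_add zero_le_one]
  ring

lemma ext_smul {χ : E d → ℂ} (hχ : Cutf χ) {ℓ : ℝ} (hℓ : 0 < ℓ) (hℓ1 : ℓ ≤ 1) (c : ℂ)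
    (f : X1 d j) : per j (fun x => χ x * BU.ev (c • f) (ℓ⁻¹ • x))
      = c • per j (fun x => χ x * BU.ev f (ℓ⁻¹ • x)) := by
  rw [((Loc_ext hχ hℓ hℓ1 f).smul c).2]
  congr 1
  ext x
  rw [BU.ev_smul zero_le_one]
  ring

open Classical in
/-- **The extension operator**: `ExL χ j ℓ f` is the periodisation of `χ(x) f(x/ℓ)`. -/
noncomputable def ExL (χ : E d → ℂ) (j : ℕ) (ℓ : ℝ) : X1 d j →L[ℂ] WA d j :=
  if h : Cutf χ ∧ 0 < ℓ ∧ ℓ ≤ 1 then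
    LinearMap.mkContinuous
      { toFun := fun f => per j (fun x => χ x * BU.ev f (ℓ⁻¹ • x))
        map_add' := ext_add h.1 h.2.1 h.2.2
        map_smul' := ext_smul h.1 h.2.1 h.2.2 } ((ℓ⁻¹) ^ j * CK2 χ j)
      (fun f => by
        simp only [LinearMap.coe_mk, AddHom.coe_mk]
        refine (norm_le_Nn h.2.1 h.2.2 _).trans ?_
        rw [mul_assoc]
        have h0 : 0 ≤ (ℓ⁻¹) ^ j := by have := h.2.1; positivity
        exact mul_le_mul_of_nonneg_left (CK2_le h.1 h.2.1 h.2.2 f) h0)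
  else 0

theorem ExL_apply {χ : E d → ℂ} (hχ : Cutf χ) {ℓ : ℝ} (hℓ : 0 < ℓ) (hℓ1 : ℓ ≤ 1) (f : X1 d j) :
    ExL χ j ℓ f = per j (fun x => χ x * BU.ev f (ℓ⁻¹ • x)) := by
  rw [ExL, dif_pos ⟨hχ, hℓ, hℓ1⟩]
  rfl

theorem Nn_ExL_le {χ : E d → ℂ} (hχ : Cutf χ) {ℓ : ℝ} (hℓ : 0 < ℓ) (hℓ1 : ℓ ≤ 1) (f : X1 d j) :
    Nn ℓ j (ExL χ j ℓ f) ≤ CK2 χ j * ‖f‖ := by
  rw [ExL_apply hχ hℓ hℓ1]
  exact CK2_le hχ hℓ hℓ1 f

theorem ev_ExL {χ : E d → ℂ} (hχ : Cutf χ) {ℓ : ℝ} (hℓ : 0 < ℓ) (hℓ1 : ℓ ≤ 1) (f : X1 d j)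
    (x : Fin d → ℝ) :
    A.WA.ev (ExL χ j ℓ f) x = perF (fun x => χ x * BU.ev f (ℓ⁻¹ • x)) x := by
  rw [ExL_apply hχ hℓ hℓ1]
  exact (Loc_ext hχ hℓ hℓ1 f).ev_per x

/-! ### The cut-offs -/

lemma cutf_cA : Cutf (cA : E d → ℂ) := ⟨contDiff_cA, fun x hx => cA_eq_zero (by linarith)⟩

lemma cutf_c1 : Cutf (c1 : E d → ℂ) := ⟨contDiff_c1, fun x hx => c1_eq_zero (by linarith)⟩

lemma cutf_c2 : Cutf (c2 : E d → ℂ) := ⟨contDiff_c2, fun x hx => c2_eq_zero (by linarith)⟩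

/-- **ER**: extension after restriction is the multiplication by the inner cut-off. -/
theorem ExL_restr (hj : j ≤ k) {ℓ : ℝ} (hℓ : 0 < ℓ) (hℓ1 : ℓ ≤ 1) (v : WA d k) {f : X1 d j}
    (hf : ∀ y, BU.ev f y = c1 (ℓ • y) * A.WA.ev v (WithLp.ofLp (ℓ • y))) :
    ExL c2 j ℓ f = dn hj (per k c2 * v) := by
  apply A.WA.ev_injective
  intro x
  rw [ev_ExL cutf_c2 hℓ hℓ1, ev_dn, ev_per_mul (Loc.smooth contDiff_c2 cutf_c2.2 k)]
  congr 1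
  ext y
  rw [hf, smul_smul, mul_inv_cancel₀ hℓ.ne', one_smul, ← mul_assoc, c2_mul_c1]

end Vale.Agent.P139.H201
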