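import Vale.Agent.P139.H201.Ext7
import Vale.Agent.P139.H605.Step1Def

/-!
# Extension from `ℝ^d` to the torus, VIII: tails of profile, potential and modes
-/

open Set Filter Topology MeasureTheory FourierTransform
open scoped ComplexConjugate ContDiff

namespace Vale.Agent.P139.H201

open Vale.Agent.P139.A Vale.Agent.P139.A.WA Vale.Agent.P139.H203 Vale.Agent.P139.BU
open Vale.Agent.P139.N Vale.Agent.P139.H730 Vale.Agent.P139.H605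

variable {d k j : ℕ}

/-! ### Functions in the Wiener class -/

/-- symbols of negative order are in the Wiener class of every order -/
theorem WienerRep.of_symb {δ : ℝ} (hδ : 0 < δ) {f : E d → ℂ} (hf : Symb δ f) (k : ℕ) :
    ∃ C : ℝ, WienerRep k f C := by
  obtain ⟨C, hC, H⟩ := WienerRep.symbol (E d) ℂ k hδ
  choose A hA0 hA using hf.exists_nonneg
  refine ⟨C * ∑ i ∈ Finset.range (nd (E d) k + 1), A i, H f _
    (Finset.sum_nonneg fun i _ => hA0 i) (hf.1.of_le (by exact_mod_cast le_top)) ?_⟩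
  intro i hi x
  refine (hA i x).trans ?_
  have h0 : (0 : ℝ) ≤ (1 + ‖x‖) ^ (-δ - (i : ℝ)) := by positivity
  refine mul_le_mul_of_nonneg_right ?_ h0
  exact Finset.single_le_sum (f := A) (fun i _ => hA0 i) (Finset.mem_range.2 (by omega))

/-- elements of the space of densities are in the Wiener class -/
theorem WienerRep.of_X1 (f : X1 d k) : WienerRep k (BU.ev f) ‖f‖ := by
  have h1 := XK.integrable zero_le_one f
  refine ⟨f, h1, ?_, fun x => rfl, ?_⟩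
  · have := XK.integrable_wt zero_le_one f
    simpa only [wt, one_mul] using this
  · rw [XK.norm_eq zero_le_one]
    simp only [wt, one_mul, le_refl]

/-- functions in the Wiener class are represented by elements of the space of densities -/
theorem WienerRep.exists_X1 {f : E d → ℂ} {C : ℝ} (hf : WienerRep k f C) :
    ∃ v : X1 d k, (∀ y, BU.ev v y = f y) ∧ ‖v‖ ≤ C := by
  obtain ⟨φ, hφ, hφs, hrep, hle⟩ := hf
  obtain ⟨v, -, h2, h3⟩ := exists_ev (d := d) (s := k) zero_le_one hφ.1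
    (by simpa only [wt, one_mul] using hφs)
  refine ⟨v, fun y => by rw [h2, hrep], ?_⟩
  rw [h3]
  simpa only [wt, one_mul] using hle

lemma WienerRep.pw {f : E d → ℂ} {C : ℝ} (hf : WienerRep k f C) : ∃ φ : E d → ℂ, Integrable φ ∧
    Integrable (fun ξ => (1 + ‖ξ‖) ^ k * ‖φ ξ‖) ∧ ∫ ξ, (1 + ‖ξ‖) ^ k * ‖φ ξ‖ ≤ 2 ^ k * C ∧
    ∀ x, f x = 𝓕⁻ φ x := by
  obtain ⟨φ, hφ, hφs, hrep, hle⟩ := hf
  obtain ⟨h1, h2⟩ := weight_compare hφs hφ.1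
  exact ⟨φ, hφ, h1, h2.trans (by gcongr), hrep⟩

/-- localisation of a function in the Wiener class -/
theorem Loc_rep {χ : E d → ℂ} (hχ : Cutf χ) {f : E d → ℂ} {C : ℝ} (hf : WienerRep k f C) {ℓ : ℝ}
    (hℓ : 0 < ℓ) (hℓ1 : ℓ ≤ 1) : Loc k (fun x => χ x * f (ℓ⁻¹ • x)) := by
  obtain ⟨φ, h1, h2, -, h4⟩ := hf.pw
  simp only [h4]
  exact Loc.ext hχ.1 hχ.2 hℓ hℓ1 h1 h2

/-- uniform bound for the localisation of a function in the Wiener class -/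
theorem Nn_rep_le {χ : E d → ℂ} (hχ : Cutf χ) (hj : j ≤ k) : ∃ C' : ℝ, 0 < C' ∧
    ∀ (f : E d → ℂ) (C : ℝ), WienerRep k f C → ∀ ℓ : ℝ, 0 < ℓ → ℓ ≤ 1 →
    Nn ℓ j (per k (fun x => χ x * f (ℓ⁻¹ • x))) ≤ C' * C := by
  obtain ⟨C1, hC1, H⟩ := Nn_ext_le (k := k) hχ.1 hχ.2 hj
  refine ⟨C1 * 2 ^ k, by positivity, fun f C hf ℓ hℓ hℓ1 => ?_⟩
  obtain ⟨φ, h1, h2, h3, h4⟩ := hf.pw
  simp only [h4]
  refine (H ℓ hℓ hℓ1 φ h1 h2).trans ?_
  have h5 := (moment_le hj h1.1 h2).2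
  rw [mul_assoc]
  gcongr
  exact h5.trans h3

/-! ### Differences of cut-offs -/

lemma cutf_sub : Cutf (fun x : E d => cA x - c2 x) :=
  ⟨contDiff_cA.sub contDiff_c2, fun x hx => by
    show cA x - c2 x = 0
    rw [cA_eq_zero (by linarith), c2_eq_zero (by linarith), sub_zero]⟩

lemma cA_sub_c2 {x : E d} (hx : ‖x‖ ≤ 1 / 8) : cA x - c2 x = 0 := by
  rw [cA_eq_one (by linarith), c2_eq_one hx, sub_self]

/-- the part of a cut-off function away from the origin -/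
theorem sub_c2_mul {f : E d → ℂ} {C : ℝ} (hf : WienerRep k f C) {ℓ : ℝ} (hℓ : 0 < ℓ)
    (hℓ1 : ℓ ≤ 1) : Up k f ℓ - per k c2 * Up k f ℓ
      = per k (fun x => (cA x - c2 x) * f (ℓ⁻¹ • x)) := by
  have h1 := Loc_rep cutf_cA hf hℓ hℓ1
  have h2 := (Loc.smooth contDiff_c2 cutf_c2.2 k).mul h1
  rw [Up, h2.2, (h1.sub h2.1).2]
  congr 1
  ext x
  rw [← mul_assoc, c2_mul_cA, sub_mul]

/-- the tail of the cut-off profile -/
theorem tail_Up {f : E d → ℂ} {C : ℝ} (hf : WienerRep k f C) (hj : j ≤ k) :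
    Tendsto (fun ℓ : ℝ => Nn ℓ j (per k (fun x => (cA x - c2 x) * f (ℓ⁻¹ • x))))
      (𝓝[>] 0) (𝓝 0) :=
  tail_tendsto_rep cutf_sub.1 cutf_sub.2 (r0 := 1 / 8) (by norm_num) (fun x hx => cA_sub_c2 hx)
    hj hf

/-- the linearised potential away from the origin -/
theorem Nn_BW_tail {ℓ : ℝ} (h0 : 0 ≤ ℓ) (h1 : ℓ ≤ 1) (hj : j ≤ k) {m : ℕ} (hm : 1 ≤ m)
    (c W h : WA d k) : Nn ℓ j (BW m W h - c * BW m W h) ≤
      (2 * m + 1) * Nn ℓ j (W - c * W) * Nn ℓ j W ^ (2 * m - 1) * Nn ℓ j h := by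
  obtain ⟨n, rfl⟩ : ∃ n, m = n + 1 := ⟨m - 1, by omega⟩
  have hW := Nn_nonneg h0 j W
  have hh := Nn_nonneg h0 j h
  have hD := Nn_nonneg h0 j (W - c * W)
  have hexp : 2 * (n + 1) - 1 = n + (n + 1) := by omega
  have key : ∀ g h' : WA d k, Nn ℓ j g ≤ Nn ℓ j W ^ (n + (n + 1)) → Nn ℓ j h' = Nn ℓ j h →
      Nn ℓ j ((W - c * W) * g * h') ≤
        Nn ℓ j (W - c * W) * Nn ℓ j W ^ (n + (n + 1)) * Nn ℓ j h := by
    intro g h' hg hh'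
    refine (Nn_mul_le h0 h1 hj _ _).trans ?_
    rw [hh']
    refine mul_le_mul_of_nonneg_right ?_ hh
    refine (Nn_mul_le h0 h1 hj _ _).trans ?_
    exact mul_le_mul_of_nonneg_left hg hD
  have hpw : ∀ p q : ℕ, Nn ℓ j (W ^ p * conjL W ^ q) ≤ Nn ℓ j W ^ (p + q) := by
    intro p q
    have e2 := Nn_pow_le h0 h1 hj W p
    have e3 := Nn_pow_le h0 h1 hj (conjL W) q
    rw [Nn_conjL] at e3
    rw [pow_add]
    exact (Nn_mul_le h0 h1 hj _ _).trans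
      (mul_le_mul e2 e3 (Nn_nonneg h0 j _) (pow_nonneg hW _))
  have e1 := key (W ^ n * conjL W ^ (n + 1)) h (hpw _ _) rfl
  have e2 := key (W ^ (n + 1) * conjL W ^ n) (conjL h)
    ((hpw _ _).trans (le_of_eq (by ring))) (Nn_conjL _ _ _)
  have heq : BW (n + 1) W h - c * BW (n + 1) W h = (-Complex.I) •
      (((n + 1 : ℕ) + 1 : WA d k) * ((W - c * W) * (W ^ n * conjL W ^ (n + 1)) * h) +
      ((n + 1 : ℕ) : WA d k) * ((W - c * W) * (W ^ (n + 1) * conjL W ^ n) * conjL h)) := by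
    unfold BW
    rw [Nat.add_sub_cancel, mul_smul_comm, ← smul_sub]
    congr 1
    ring
  rw [heq, Nn_smul, norm_neg, Complex.norm_I, one_mul, hexp]
  refine (Nn_add_le h0 h1 hj _ _).trans ?_
  have e5 := Nn_natCast_mul_le h0 h1 hj (n + 1 + 1)
    ((W - c * W) * (W ^ n * conjL W ^ (n + 1)) * h)
  have e6 := Nn_natCast_mul_le h0 h1 hj (n + 1)
    ((W - c * W) * (W ^ (n + 1) * conjL W ^ n) * conjL h)
  set X := Nn ℓ j (W - c * W) * Nn ℓ j W ^ (n + (n + 1)) * Nn ℓ j h with hX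
  have hn0 : (0 : ℝ) ≤ n := Nat.cast_nonneg n
  have e7 : ((n + 1 + 1 : ℕ) : ℝ) * Nn ℓ j ((W - c * W) * (W ^ n * conjL W ^ (n + 1)) * h)
      ≤ ((n + 1 + 1 : ℕ) : ℝ) * X := by gcongr
  have e8 : ((n + 1 : ℕ) : ℝ) * Nn ℓ j ((W - c * W) * (W ^ (n + 1) * conjL W ^ n) * conjL h)
      ≤ ((n + 1 : ℕ) : ℝ) * X := by gcongr
  have e9 : (2 * ((n + 1 : ℕ) : ℝ) + 1) * Nn ℓ j (W - c * W) * Nn ℓ j W ^ (n + (n + 1)) *
      Nn ℓ j h = ((n + 1 + 1 : ℕ) : ℝ) * X + ((n + 1 : ℕ) : ℝ) * X := by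
    rw [hX]
    push_cast
    ring
  rw [e9]
  push_cast at e5 e6 e7 e8 ⊢
  linarith

/-- **Fb.** -/
theorem Fb_tendsto {m : ℕ} (hm : 1 ≤ m) {Q : E d → ℂ} {C : ℝ} (hQ : WienerRep k Q C)
    (hj : j ≤ k) : ∃ θ : ℝ → ℝ, Tendsto θ (𝓝[>] 0) (𝓝 0) ∧ ∀ ℓ, 0 < ℓ → ℓ ≤ 1 →
      ∀ v : WA d k, Nn ℓ j (BW m (Up k Q ℓ) v - per k c2 * BW m (Up k Q ℓ) v)
        ≤ θ ℓ * Nn ℓ j v := by
  obtain ⟨C', hC', H⟩ := Nn_rep_le (d := d) cutf_cA hj
  have hC0 := hQ.nonneg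
  refine ⟨fun ℓ => (2 * m + 1) * Nn ℓ j (per k (fun x => (cA x - c2 x) * Q (ℓ⁻¹ • x)))
    * (C' * C) ^ (2 * m - 1), ?_, ?_⟩
  · have := ((tail_Up hQ hj).const_mul (2 * (m : ℝ) + 1)).mul_const ((C' * C) ^ (2 * m - 1))
    simpa using this
  · intro ℓ hℓ hℓ1 v
    refine (Nn_BW_tail hℓ.le hℓ1 hj hm (per k c2) (Up k Q ℓ) v).trans ?_
    rw [sub_c2_mul hQ hℓ hℓ1]
    have h1 := H Q C hQ ℓ hℓ hℓ1
    have h2 := Nn_nonneg hℓ.le j (Up k Q ℓ)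
    have h3 := Nn_nonneg hℓ.le j v
    have h4 := Nn_nonneg hℓ.le j (per k (fun x => (cA x - c2 x) * Q (ℓ⁻¹ • x)))
    have h5 : Nn ℓ j (Up k Q ℓ) ^ (2 * m - 1) ≤ (C' * C) ^ (2 * m - 1) :=
      pow_le_pow_left₀ h2 h1 _
    simp only
    gcongr

/-- the cut-offs `cA` and `c2` give the same mode up to `o(1)` -/
theorem mode_mismatch {e : E d → ℂ} {C : ℝ} (he : WienerRep k e C) (hj : j ≤ k) {ℓ : ℝ}
    (hℓ : 0 < ℓ) (hℓ1 : ℓ ≤ 1) (f : X1 d j) (hf : ∀ y, BU.ev f y = e y) :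
    Nn ℓ j (dn hj (Up k e ℓ) - ExL c2 j ℓ f)
      = Nn ℓ j (per k (fun x => (cA x - c2 x) * e (ℓ⁻¹ • x))) := by
  rw [← Nn_dn hj ℓ j (per k _)]
  congr 1
  apply A.WA.ev_injective
  intro x
  rw [ev_sub', ev_dn, ev_ExL cutf_c2 hℓ hℓ1, ev_dn, Up, (Loc_rep cutf_cA he hℓ hℓ1).ev_per,
    (Loc_rep cutf_sub he hℓ hℓ1).ev_per, perF, perF, perF, hf]
  ring

end Vale.Agent.P139.H201
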