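import Mathlib

/-!
# Wiener-type representation of functions with symbol bounds

`WienerRep s f C` : `f` is an inverse Fourier integral of some `φ` with
`∫ (1 + ‖ξ‖ ^ s) * ‖φ ξ‖ ≤ C`.
-/

open MeasureTheory Real FourierTransform Filter Topology Metric
open scoped ContDiff

namespace Vale.Agent.P139.H201

variable {E : Type*} [NormedAddCommGroup E] [InnerProductSpace ℝ E] [FiniteDimensional ℝ E]
  [MeasurableSpace E] [BorelSpace E]
variable {F : Type*} [NormedAddCommGroup F] [NormedSpace ℂ F]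

/-- `f` is the inverse Fourier integral of a function of weighted `L¹` norm at most `C`. -/
def WienerRep (s : ℕ) (f : E → F) (C : ℝ) : Prop :=
  ∃ φ : E → F, Integrable φ ∧ Integrable (fun ξ => (1 + ‖ξ‖ ^ s) * ‖φ ξ‖) ∧
    (∀ x, f x = 𝓕⁻ φ x) ∧ ∫ ξ, (1 + ‖ξ‖ ^ s) * ‖φ ξ‖ ≤ C

/-- constant in the pointwise decay of the Fourier transform -/
lemma fourier_decay (n : ℕ) (r : ℝ) : ∃ C : ℝ, 0 < C ∧ ∀ (g : E → F) (A : ℝ), 0 ≤ A →
    ContDiff ℝ n g → (∀ x, r < ‖x‖ → g x = 0) →
    (∀ j ≤ n, ∀ x, ‖iteratedFDeriv ℝ j g x‖ ≤ A) →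
    ∀ ξ, (1 + ‖ξ‖) ^ n * ‖𝓕 g ξ‖ ≤ C * A := by
  classical
  set V : ℝ := (volume (closedBall (0 : E) r)).toReal with hV
  have hVfin : volume (closedBall (0 : E) r) ≠ ⊤ := measure_closedBall_lt_top.ne
  have hV0 : 0 ≤ V := ENNReal.toReal_nonneg
  refine ⟨2 ^ n * (2 ^ n * ((n + 1) * V) + V) + 1, by positivity, ?_⟩
  intro g A hA hg hsupp hbd ξ
  -- support of derivatives
  have hts : tsupport g ⊆ closedBall (0 : E) r := by
    apply closure_minimal _ isClosed_closedBall
    intro x hx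
    rw [mem_closedBall_zero_iff]
    by_contra hlt
    exact hx (hsupp x (not_le.mp hlt))
  have hcs : HasCompactSupport g :=
    HasCompactSupport.of_support_subset_isCompact (isCompact_closedBall (0 : E) r)
      ((subset_tsupport g).trans hts)
  have hcsj : ∀ j, HasCompactSupport (iteratedFDeriv ℝ j g) := fun j => hcs.iteratedFDeriv j
  have hcontj : ∀ j ≤ n, Continuous (iteratedFDeriv ℝ j g) := fun j hj =>
    hg.continuous_iteratedFDeriv (by exact_mod_cast hj)
  have hIj : ∀ j ≤ n, ∫ v, ‖iteratedFDeriv ℝ j g v‖ ≤ A * V := by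
    intro j hj
    have hzero : ∀ x, x ∉ closedBall (0 : E) r → ‖iteratedFDeriv ℝ j g x‖ = 0 := by
      intro x hx
      rw [norm_eq_zero]
      by_contra hne
      have : x ∈ tsupport g := support_iteratedFDeriv_subset (𝕜 := ℝ) j hne
      exact hx (hts this)
    rw [← setIntegral_eq_integral_of_forall_compl_eq_zero (s := closedBall (0 : E) r) hzero]
    calc ∫ v in closedBall (0 : E) r, ‖iteratedFDeriv ℝ j g v‖
        ≤ ∫ v in closedBall (0 : E) r, A := by
          apply setIntegral_mono_on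
          · exact ((hcontj j hj).norm.integrable_of_hasCompactSupport
              (hcsj j).norm).integrableOn
          · exact integrableOn_const (hs := hVfin)
          · exact measurableSet_closedBall
          · intro x _
            exact hbd j hj x
      _ = A * V := by
          rw [setIntegral_const, smul_eq_mul, mul_comm]
          rfl
  have hint : ∀ (k m : ℕ), (k : ℕ∞) ≤ 0 → (m : ℕ∞) ≤ (n : ℕ∞) →
      Integrable (fun v ↦ ‖v‖ ^ k * ‖iteratedFDeriv ℝ m g v‖) := by
    intro k m _ hm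
    have hm' : m ≤ n := by exact_mod_cast hm
    apply Continuous.integrable_of_hasCompactSupport
    · exact (continuous_norm.pow k).mul (hcontj m hm').norm
    · exact (hcsj m).norm.mul_left
  have hmain := Real.pow_mul_norm_iteratedFDeriv_fourier_le (K := 0) (N := n) hg hint
    (k := 0) (n := n) le_rfl le_rfl ξ
  have hzero := Real.pow_mul_norm_iteratedFDeriv_fourier_le (K := 0) (N := n) hg hint
    (k := 0) (n := 0) le_rfl (by simp) ξ
  simp only [norm_iteratedFDeriv_zero, pow_zero, one_mul, mul_zero, zero_add, Finset.range_one,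
    Finset.singleton_product, Finset.sum_map, Function.Embedding.coeFn_mk, Nat.cast_zero,
    Finset.sum_singleton] at hmain hzero
  have h1 : ‖ξ‖ ^ n * ‖𝓕 g ξ‖ ≤ 2 ^ n * ((n + 1) * (A * V)) := by
    refine hmain.trans ?_
    gcongr
    calc ∑ x ∈ Finset.range (n + 1), ∫ v, ‖iteratedFDeriv ℝ x g v‖
        ≤ ∑ x ∈ Finset.range (n + 1), A * V := by
          apply Finset.sum_le_sum
          intro j hj
          exact hIj j (Nat.lt_succ_iff.mp (Finset.mem_range.mp hj))
      _ = (n + 1) * (A * V) := by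
          rw [Finset.sum_const, Finset.card_range, nsmul_eq_mul]
          push_cast
          ring
  have h0 : ‖𝓕 g ξ‖ ≤ A * V := by
    refine hzero.trans ?_
    have := hIj 0 (Nat.zero_le n)
    simpa using this
  have h2 : (1 + ‖ξ‖) ^ n ≤ 2 ^ n * (1 + ‖ξ‖ ^ n) := by
    have hmax : (1 + ‖ξ‖) ≤ 2 * max 1 ‖ξ‖ := by
      have := le_max_left (1:ℝ) ‖ξ‖
      have := le_max_right (1:ℝ) ‖ξ‖
      linarith
    calc (1 + ‖ξ‖) ^ n ≤ (2 * max 1 ‖ξ‖) ^ n := by gcongr
      _ = 2 ^ n * (max 1 ‖ξ‖) ^ n := mul_pow _ _ _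
      _ ≤ 2 ^ n * (1 + ‖ξ‖ ^ n) := by
          gcongr
          rcases le_total 1 ‖ξ‖ with h | h
          · rw [max_eq_right h]; linarith
          · rw [max_eq_left h, one_pow]
            have : 0 ≤ ‖ξ‖ ^ n := by positivity
            linarith
  calc (1 + ‖ξ‖) ^ n * ‖𝓕 g ξ‖ ≤ 2 ^ n * (1 + ‖ξ‖ ^ n) * ‖𝓕 g ξ‖ := by gcongr
    _ = 2 ^ n * (‖𝓕 g ξ‖ + ‖ξ‖ ^ n * ‖𝓕 g ξ‖) := by ring
    _ ≤ 2 ^ n * (A * V + 2 ^ n * ((n + 1) * (A * V))) := by gcongr
    _ = (2 ^ n * (2 ^ n * ((n + 1) * V) + V)) * A := by ring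
    _ ≤ (2 ^ n * (2 ^ n * ((n + 1) * V) + V) + 1) * A := by
        gcongr
        linarith

end Vale.Agent.P139.H201
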