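import Vale.Agent.P139.H201.Wiener1

/-!
# Sums and dilations of Wiener representations
-/

open MeasureTheory Real FourierTransform Filter Topology Metric
open scoped ContDiff ENNReal

namespace Vale.Agent.P139.H201

/-- Fubini-type lemma: norm-summable series of integrable functions. -/
lemma integrable_tsum_aux {α G : Type*} [MeasurableSpace α] {μ : Measure α}
    [NormedAddCommGroup G] [CompleteSpace G]
    {f : ℕ → α → G} (hf : ∀ i, Integrable (f i) μ)
    (hs : Summable fun i => ∫ a, ‖f i a‖ ∂μ) :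
    (∀ᵐ a ∂μ, Summable fun i => ‖f i a‖) ∧ Integrable (fun a => ∑' i, f i a) μ ∧
      ∫ a, ‖∑' i, f i a‖ ∂μ ≤ ∑' i, ∫ a, ‖f i a‖ ∂μ := by
  have hen : ∀ i, ∫⁻ a, ‖f i a‖ₑ ∂μ = ENNReal.ofReal (∫ a, ‖f i a‖ ∂μ) := by
    intro i
    rw [ofReal_integral_norm_eq_lintegral_enorm (hf i)]
  have hsum : ∑' i, ∫⁻ a, ‖f i a‖ₑ ∂μ = ENNReal.ofReal (∑' i, ∫ a, ‖f i a‖ ∂μ) := by
    rw [ENNReal.ofReal_tsum_of_nonneg (fun i => integral_nonneg fun a => norm_nonneg _) hs]
    exact tsum_congr hen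
  have hne : ∑' i, ∫⁻ a, ‖f i a‖ₑ ∂μ ≠ ⊤ := by rw [hsum]; exact ENNReal.ofReal_ne_top
  have hae : ∀ᵐ a ∂μ, Summable fun i => ‖f i a‖ := by
    apply summable_norm_of_tsum_eLpNorm_ne_top (p := 1) le_rfl (fun i => (hf i).1)
    simpa [eLpNorm_one_eq_lintegral_enorm] using hne
  have hmeas : AEStronglyMeasurable (fun a => ∑' i, f i a) μ := by
    apply aestronglyMeasurable_of_tendsto_ae (u := atTop)
      (f := fun n : ℕ => fun a => ∑ i ∈ Finset.range n, f i a)
    · intro n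
      exact Finset.aestronglyMeasurable_fun_sum _ (fun i _ => (hf i).1)
    · filter_upwards [hae] with a ha
      exact (ha.of_norm).hasSum.tendsto_sum_nat
  have hle : ∫⁻ a, ‖∑' i, f i a‖ₑ ∂μ ≤ ∑' i, ∫⁻ a, ‖f i a‖ₑ ∂μ := by
    rw [← lintegral_tsum (fun i => (hf i).1.enorm)]
    exact lintegral_mono fun a => enorm_tsum_le_tsum_enorm
  have hint : Integrable (fun a => ∑' i, f i a) μ := ⟨hmeas, lt_of_le_of_lt hle hne.lt_top⟩
  refine ⟨hae, hint, ?_⟩
  have h1 : ENNReal.ofReal (∫ a, ‖∑' i, f i a‖ ∂μ) ≤ ENNReal.ofReal (∑' i, ∫ a, ‖f i a‖ ∂μ) := by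
    rw [ofReal_integral_norm_eq_lintegral_enorm hint, ← hsum]
    exact hle
  rwa [ENNReal.ofReal_le_ofReal_iff
    (tsum_nonneg fun i => integral_nonneg fun a => norm_nonneg _)] at h1

variable {E : Type*} [NormedAddCommGroup E] [InnerProductSpace ℝ E] [FiniteDimensional ℝ E]
  [MeasurableSpace E] [BorelSpace E]
variable {F : Type*} [NormedAddCommGroup F] [NormedSpace ℂ F]

lemma WienerRep.mono {s : ℕ} {f : E → F} {C C' : ℝ} (h : WienerRep s f C) (hC : C ≤ C') :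
    WienerRep s f C' := by
  obtain ⟨φ, h1, h2, h3, h4⟩ := h
  exact ⟨φ, h1, h2, h3, h4.trans hC⟩

lemma weight_nonneg {E : Type*} [NormedAddCommGroup E] (s : ℕ) (ξ : E) : 0 ≤ 1 + ‖ξ‖ ^ s := by
  positivity

lemma WienerRep.nonneg {s : ℕ} {f : E → F} {C : ℝ} (h : WienerRep s f C) : 0 ≤ C := by
  obtain ⟨φ, _, _, _, h4⟩ := h
  exact (integral_nonneg fun ξ => mul_nonneg (weight_nonneg s ξ) (norm_nonneg _)).trans h4

/-- dilation by `R ≥ 1` does not increase the weighted norm -/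
lemma WienerRep.dilate {s : ℕ} {f : E → F} {C : ℝ} (h : WienerRep s f C) {R : ℝ} (hR : 1 ≤ R) :
    WienerRep s (fun x => f (R⁻¹ • x)) C := by
  obtain ⟨φ, h1, h2, h3, h4⟩ := h
  have hR0 : 0 < R := lt_of_lt_of_le one_pos hR
  set n := Module.finrank ℝ E with hn
  set φ' : E → F := fun ξ => (R ^ n : ℝ) • φ (R • ξ) with hφ'
  have hnorm : ∀ ξ, ‖φ' ξ‖ = R ^ n * ‖φ (R • ξ)‖ := by
    intro ξ
    rw [hφ']
    simp only [norm_smul, norm_pow, norm_eq_abs, abs_of_pos hR0]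
  have h1' : Integrable φ' := by
    exact (h1.comp_smul hR0.ne').smul (R ^ n : ℝ)
  -- the auxiliary function whose dilate dominates
  set w : E → ℝ := fun ξ => (1 + ‖R⁻¹ • ξ‖ ^ s) * ‖φ ξ‖ with hw
  have hwle : ∀ ξ, w ξ ≤ (1 + ‖ξ‖ ^ s) * ‖φ ξ‖ := by
    intro ξ
    rw [hw]
    simp only
    gcongr
    rw [norm_smul, norm_inv, Real.norm_of_nonneg hR0.le]
    have : R⁻¹ ≤ 1 := inv_le_one_of_one_le₀ hR
    calc R⁻¹ * ‖ξ‖ ≤ 1 * ‖ξ‖ := by gcongr
      _ = ‖ξ‖ := one_mul _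
  have hwint : Integrable w := by
    apply h2.mono
    · apply AEStronglyMeasurable.mul
      · exact (by fun_prop : Continuous fun ξ : E => 1 + ‖R⁻¹ • ξ‖ ^ s).aestronglyMeasurable
      · exact h1.1.norm
    · filter_upwards with ξ
      rw [Real.norm_of_nonneg (by positivity), Real.norm_of_nonneg (by positivity)]
      exact hwle ξ
  have hww : (fun ξ => (1 + ‖ξ‖ ^ s) * ‖φ' ξ‖) = fun ξ => R ^ n * w (R • ξ) := by
    ext ξ
    rw [hnorm, hw]
    simp only
    rw [smul_smul, inv_mul_cancel₀ hR0.ne', one_smul]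
    ring
  refine ⟨φ', h1', ?_, ?_, ?_⟩
  · rw [hww]
    exact (hwint.comp_smul hR0.ne').const_mul _
  · intro x
    show f (R⁻¹ • x) = _
    rw [h3, Real.fourierInv_eq, Real.fourierInv_eq]
    have := Measure.integral_comp_smul volume
      (fun ξ : E => Real.fourierChar (inner ℝ ξ (R⁻¹ • x)) • φ ξ) R
    have h5 : ∀ ξ : E, Real.fourierChar (inner ℝ ξ x) • φ' ξ
        = (R ^ n : ℝ) • (Real.fourierChar (inner ℝ (R • ξ) (R⁻¹ • x)) • φ (R • ξ)) := by
      intro ξ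
      have : inner ℝ (R • ξ) (R⁻¹ • x) = inner ℝ ξ x := by
        rw [inner_smul_left, inner_smul_right]
        simp only [conj_trivial]
        field_simp
      rw [this, hφ']
      simp only [Circle.smul_def]
      rw [smul_comm]
    simp_rw [h5]
    rw [integral_smul, this, abs_of_nonneg (by positivity), smul_smul]
    rw [mul_inv_cancel₀ (by positivity), one_smul]
  · rw [hww, integral_const_mul, Measure.integral_comp_smul volume w R,
      abs_of_nonneg (by positivity), smul_eq_mul, ← mul_assoc, mul_inv_cancel₀ (by positivity),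
      one_mul]
    exact (integral_mono hwint h2 hwle).trans h4

/-- norm-summable sums of Wiener functions -/
lemma WienerRep.tsum [CompleteSpace F] {s : ℕ} {f : ℕ → E → F} {g : E → F} {c : ℕ → ℝ}
    (h : ∀ j, WienerRep s (f j) (c j)) (hc : Summable c)
    (hg : ∀ x, Tendsto (fun n => ∑ j ∈ Finset.range n, f j x) atTop (𝓝 (g x))) :
    WienerRep s g (∑' j, c j) := by
  choose φ h1 h2 h3 h4 using h
  set ψ : ℕ → E → F := fun j ξ => (1 + ‖ξ‖ ^ s : ℝ) • φ j ξ with hψ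
  have hψn : ∀ j ξ, ‖ψ j ξ‖ = (1 + ‖ξ‖ ^ s) * ‖φ j ξ‖ := by
    intro j ξ
    rw [hψ]
    simp only [norm_smul]
    rw [Real.norm_of_nonneg (weight_nonneg s ξ)]
  have hψint : ∀ j, Integrable (ψ j) := by
    intro j
    refine (integrable_norm_iff ?_).1 ?_
    · exact AEStronglyMeasurable.smul (𝕜 := ℝ)
        (by fun_prop : Continuous fun ξ : E => 1 + ‖ξ‖ ^ s).aestronglyMeasurable (h1 j).1
    · simp_rw [hψn]
      exact h2 j
  have hψsum : Summable fun j => ∫ ξ, ‖ψ j ξ‖ := by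
    refine Summable.of_nonneg_of_le (fun j => integral_nonneg fun ξ => norm_nonneg _) ?_ hc
    intro j
    simp_rw [hψn]
    exact h4 j
  have hφsum : Summable fun j => ∫ ξ, ‖φ j ξ‖ := by
    refine Summable.of_nonneg_of_le (fun j => integral_nonneg fun ξ => norm_nonneg _) ?_ hψsum
    intro j
    refine integral_mono (h1 j).norm (hψint j).norm ?_
    intro ξ
    show ‖φ j ξ‖ ≤ ‖ψ j ξ‖
    rw [hψn]
    have : 0 ≤ ‖ξ‖ ^ s * ‖φ j ξ‖ := by positivity
    linarith [this, add_mul 1 (‖ξ‖ ^ s) ‖φ j ξ‖, one_mul ‖φ j ξ‖]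
  obtain ⟨haeψ, hintψ, hleψ⟩ := integrable_tsum_aux hψint hψsum
  obtain ⟨haeφ, hintφ, hleφ⟩ := integrable_tsum_aux h1 hφsum
  have hrel : ∀ ξ, ∑' j, ψ j ξ = (1 + ‖ξ‖ ^ s : ℝ) • ∑' j, φ j ξ := by
    intro ξ
    exact tsum_const_smul'' _
  refine ⟨fun ξ => ∑' j, φ j ξ, hintφ, ?_, ?_, ?_⟩
  · have : (fun ξ => (1 + ‖ξ‖ ^ s) * ‖∑' j, φ j ξ‖) = fun ξ => ‖∑' j, ψ j ξ‖ := by
      ext ξ
      rw [hrel, norm_smul, Real.norm_of_nonneg (weight_nonneg s ξ)]
    rw [this]
    exact hintψ.norm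
  · intro x
    have hF : ∀ j, Integrable (fun ξ : E => Real.fourierChar (inner ℝ ξ x) • φ j ξ) := by
      intro j
      refine (integrable_norm_iff ?_).1 ?_
      · have hc1 : Continuous fun ξ : E => Real.fourierChar (inner ℝ ξ x) :=
          Real.continuous_fourierChar.comp (by fun_prop : Continuous fun ξ : E => inner ℝ ξ x)
        exact hc1.aestronglyMeasurable.smul (h1 j).1
      · simp only [Circle.norm_smul]
        exact (h1 j).norm
    have hS : Summable fun j => ∫ ξ, ‖Real.fourierChar (inner ℝ ξ x) • φ j ξ‖ := by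
      simp only [Circle.norm_smul]
      exact hφsum
    have key := hasSum_integral_of_summable_integral_norm hF hS
    have hlim := key.tendsto_sum_nat
    have heq : ∀ n, ∑ j ∈ Finset.range n, ∫ ξ : E, Real.fourierChar (inner ℝ ξ x) • φ j ξ
        = ∑ j ∈ Finset.range n, f j x := by
      intro n
      refine Finset.sum_congr rfl fun j _ => ?_
      rw [h3 j x, Real.fourierInv_eq]
    simp_rw [heq] at hlim
    rw [tendsto_nhds_unique (hg x) hlim, Real.fourierInv_eq]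
    congr 1
    ext ξ
    simp only [Circle.smul_def]
    exact tsum_const_smul'' _
  · have : ∀ ξ, (1 + ‖ξ‖ ^ s) * ‖∑' j, φ j ξ‖ = ‖∑' j, ψ j ξ‖ := by
      intro ξ
      rw [hrel, norm_smul, Real.norm_of_nonneg (weight_nonneg s ξ)]
    simp_rw [this]
    refine hleψ.trans (Summable.tsum_le_tsum ?_ hψsum hc)
    intro j
    simp_rw [hψn]
    exact h4 j

end Vale.Agent.P139.H201
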