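import Vale.Agent.P139.H201.Wiener2

/-!
# Symbols belong to the Wiener classes
-/

open MeasureTheory Real FourierTransform Filter Topology Metric
open scoped ContDiff

namespace Vale.Agent.P139.H201

variable {E : Type*} [NormedAddCommGroup E] [InnerProductSpace ℝ E] [FiniteDimensional ℝ E]
  [MeasurableSpace E] [BorelSpace E]
variable {F : Type*} [NormedAddCommGroup F] [NormedSpace ℂ F]

/-- number of derivatives needed for membership in the class of order `s` -/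
noncomputable def nd (E : Type*) [NormedAddCommGroup E] [InnerProductSpace ℝ E] (s : ℕ) : ℕ :=
  Module.finrank ℝ E + 1 + s

lemma integrable_char_smul {φ : E → F} (h : Integrable φ) (x : E) :
    Integrable (fun ξ : E => Real.fourierChar (inner ℝ ξ x) • φ ξ) := by
  have hc1 : Continuous fun ξ : E => Real.fourierChar (inner ℝ ξ x) :=
    Real.continuous_fourierChar.comp (by fun_prop : Continuous fun ξ : E => inner ℝ ξ x)
  refine (integrable_norm_iff (f := fun ξ : E => Real.fourierChar (inner ℝ ξ x) • φ ξ)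
    (hc1.aestronglyMeasurable.smul h.1)).1 ?_
  simp only [Circle.norm_smul]
  exact h.norm

lemma WienerRep.add {s : ℕ} {f g : E → F} {C C' : ℝ}
    (hf : WienerRep s f C) (hg : WienerRep s g C') : WienerRep s (fun x => f x + g x) (C + C') := by
  obtain ⟨φ, h1, h2, h3, h4⟩ := hf
  obtain ⟨γ, k1, k2, k3, k4⟩ := hg
  have hle : ∀ ξ : E, (1 + ‖ξ‖ ^ s) * ‖φ ξ + γ ξ‖
      ≤ (1 + ‖ξ‖ ^ s) * ‖φ ξ‖ + (1 + ‖ξ‖ ^ s) * ‖γ ξ‖ := by
    intro ξ
    rw [← mul_add]
    exact mul_le_mul_of_nonneg_left (norm_add_le _ _) (weight_nonneg s ξ)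
  have hint : Integrable (fun ξ : E => (1 + ‖ξ‖ ^ s) * ‖φ ξ + γ ξ‖) := by
    apply (h2.add k2).mono
    · apply AEStronglyMeasurable.mul
      · exact (by fun_prop : Continuous fun ξ : E => 1 + ‖ξ‖ ^ s).aestronglyMeasurable
      · exact (h1.1.add k1.1).norm
    · filter_upwards with ξ
      rw [Real.norm_of_nonneg (mul_nonneg (weight_nonneg s ξ) (norm_nonneg _))]
      exact (hle ξ).trans (le_abs_self _)
  refine ⟨fun ξ => φ ξ + γ ξ, h1.add k1, hint, ?_, ?_⟩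
  · intro x
    show f x + g x = _
    rw [h3, k3, Real.fourierInv_eq, Real.fourierInv_eq, Real.fourierInv_eq, ← integral_add]
    · congr 1
      ext ξ
      simp [Circle.smul_def, smul_add]
    · exact integrable_char_smul h1 x
    · exact integrable_char_smul k1 x
  · calc ∫ ξ : E, (1 + ‖ξ‖ ^ s) * ‖φ ξ + γ ξ‖
        ≤ ∫ ξ : E, ((1 + ‖ξ‖ ^ s) * ‖φ ξ‖ + (1 + ‖ξ‖ ^ s) * ‖γ ξ‖) :=
          integral_mono hint (h2.add k2) hle
      _ = _ := integral_add h2 k2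
      _ ≤ C + C' := add_le_add h4 k4

/-- compactly supported functions of class `C ^ nd` are in the Wiener class. -/
theorem WienerRep.of_supp (E : Type*) [NormedAddCommGroup E]
    [InnerProductSpace ℝ E] [FiniteDimensional ℝ E] [MeasurableSpace E] [BorelSpace E]
    (F : Type*) [NormedAddCommGroup F] [NormedSpace ℂ F] [CompleteSpace F] (s : ℕ) (r : ℝ) :
    ∃ C : ℝ, 0 < C ∧ ∀ (g : E → F) (A : ℝ), 0 ≤ A →
    ContDiff ℝ (nd E s) g → (∀ x, r < ‖x‖ → g x = 0) →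
    (∀ j ≤ nd E s, ∀ x, ‖iteratedFDeriv ℝ j g x‖ ≤ A) → WienerRep s g (C * A) := by
  obtain ⟨C, hC, H⟩ := fourier_decay (E := E) (F := F) (nd E s) r
  set D : ℕ := Module.finrank ℝ E + 1 with hD
  set K : ℝ := ∫ ξ : E, (1 + ‖ξ‖) ^ (-(D : ℝ)) with hK
  have hKint : Integrable (fun ξ : E => (1 + ‖ξ‖) ^ (-(D : ℝ))) := by
    apply integrable_one_add_norm
    rw [hD]
    push_cast
    linarith
  have hK0 : 0 ≤ K := integral_nonneg fun ξ => by positivity
  refine ⟨2 * C * K + 1, by positivity, ?_⟩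
  intro g A hA hg hsupp hbd
  have hdec := H g A hA hg hsupp hbd
  have hts : tsupport g ⊆ closedBall (0 : E) r := by
    apply closure_minimal _ isClosed_closedBall
    intro x hx
    rw [mem_closedBall_zero_iff]
    by_contra hlt
    exact hx (hsupp x (not_le.mp hlt))
  have hcs : HasCompactSupport g :=
    HasCompactSupport.of_support_subset_isCompact (isCompact_closedBall (0 : E) r)
      ((subset_tsupport g).trans hts)
  have hgint : Integrable g := hg.continuous.integrable_of_hasCompactSupport hcs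
  have hFcont : Continuous (𝓕 g) := by
    exact VectorFourier.fourierIntegral_continuous Real.continuous_fourierChar
      (by exact continuous_inner) hgint
  have hpt : ∀ ξ : E, (1 + ‖ξ‖ ^ s) * ‖𝓕 g ξ‖ ≤ 2 * C * A * (1 + ‖ξ‖) ^ (-(D : ℝ)) := by
    intro ξ
    have h1 : (0:ℝ) < 1 + ‖ξ‖ := by positivity
    have h2 : (1 + ‖ξ‖ ^ s) ≤ 2 * (1 + ‖ξ‖) ^ s := by
      have ha : (1:ℝ) ≤ (1 + ‖ξ‖) ^ s := one_le_pow₀ (by linarith [norm_nonneg ξ])
      have hb : ‖ξ‖ ^ s ≤ (1 + ‖ξ‖) ^ s := by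
        gcongr
        linarith
      linarith
    have h3 : (1 + ‖ξ‖) ^ nd E s * ‖𝓕 g ξ‖ ≤ C * A := hdec ξ
    have h4 : (1 + ‖ξ‖) ^ nd E s = (1 + ‖ξ‖) ^ D * (1 + ‖ξ‖) ^ s := by
      rw [nd, pow_add]
    rw [h4] at h3
    have h5 : (1 + ‖ξ‖) ^ (-(D : ℝ)) = ((1 + ‖ξ‖) ^ D)⁻¹ := by
      rw [Real.rpow_neg h1.le, Real.rpow_natCast]
    rw [h5]
    have h6 : (0:ℝ) < (1 + ‖ξ‖) ^ D := by positivity
    rw [← div_eq_mul_inv, le_div_iff₀ h6]
    calc (1 + ‖ξ‖ ^ s) * ‖𝓕 g ξ‖ * (1 + ‖ξ‖) ^ D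
        ≤ (2 * (1 + ‖ξ‖) ^ s) * ‖𝓕 g ξ‖ * (1 + ‖ξ‖) ^ D := by gcongr
      _ = 2 * ((1 + ‖ξ‖) ^ D * (1 + ‖ξ‖) ^ s * ‖𝓕 g ξ‖) := by ring
      _ ≤ 2 * (C * A) := by gcongr
      _ = 2 * C * A := by ring
  have hbdint : Integrable (fun ξ : E => 2 * C * A * (1 + ‖ξ‖) ^ (-(D : ℝ))) :=
    hKint.const_mul _
  have hwint : Integrable (fun ξ : E => (1 + ‖ξ‖ ^ s) * ‖𝓕 g ξ‖) := by
    apply hbdint.mono
    · exact ((by fun_prop : Continuous fun ξ : E => 1 + ‖ξ‖ ^ s).mul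
        hFcont.norm).aestronglyMeasurable
    · filter_upwards with ξ
      rw [Real.norm_of_nonneg (mul_nonneg (weight_nonneg s ξ) (norm_nonneg _))]
      exact (hpt ξ).trans (le_abs_self _)
  have hFint : Integrable (𝓕 g) := by
    apply hwint.mono hFcont.aestronglyMeasurable
    filter_upwards with ξ
    rw [Real.norm_of_nonneg (mul_nonneg (weight_nonneg s ξ) (norm_nonneg _))]
    have : 0 ≤ ‖ξ‖ ^ s * ‖𝓕 g ξ‖ := by positivity
    linarith [this, add_mul 1 (‖ξ‖ ^ s) ‖𝓕 g ξ‖, one_mul ‖𝓕 g ξ‖]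
  refine ⟨𝓕 g, hFint, hwint, ?_, ?_⟩
  · intro x
    rw [Continuous.fourierInv_fourier_eq hg.continuous hgint hFint]
  · calc ∫ ξ : E, (1 + ‖ξ‖ ^ s) * ‖𝓕 g ξ‖
        ≤ ∫ ξ : E, 2 * C * A * (1 + ‖ξ‖) ^ (-(D : ℝ)) := integral_mono hwint hbdint hpt
      _ = 2 * C * A * K := integral_const_mul _ _
      _ = (2 * C * K) * A := by ring
      _ ≤ (2 * C * K + 1) * A := by
          gcongr
          linarith

end Vale.Agent.P139.H201
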